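import Vale.Agent.P287D.Nc.St
import Vale.Agent.P287D.Va.Bas

/-!
# P287D, the net count: points, reductions, prime divisors (basic facts)
-/

set_option linter.unusedSectionVars false

noncomputable section

namespace Vale.Agent.P287D.Nc

open Set Function MvPolynomial P287Q P297Z.Pl

variable {J R K : Type} [Field K] [Algebra ℂ K] {π : J → R} {ξ ξ' ξ'' : J → K} {P : Pl K}

namespace Sim

theorem refl (π : J → R) (ξ : J → K) : Sim π ξ ξ := ⟨1, fun _ => one_ne_zero, fun _ => by simp⟩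

theorem symm (h : Sim π ξ ξ') : Sim π ξ' ξ :=
  let ⟨t, a, b⟩ := h
  ⟨fun r => (t r)⁻¹, fun r => inv_ne_zero (a r), fun j => by rw [b, inv_mul_cancel_left₀ (a _)]⟩

theorem trans (h : Sim π ξ ξ') (h' : Sim π ξ' ξ'') : Sim π ξ ξ'' :=
  let ⟨t, a, b⟩ := h
  let ⟨u, c, d⟩ := h'
  ⟨fun r => u r * t r, fun r => mul_ne_zero (c r) (a r), fun j => by rw [d, b, mul_assoc]⟩

theorem nz (h : Sim π ξ ξ') (k : Nz π ξ) : Nz π ξ' := fun r =>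
  let ⟨_, a, b⟩ := h
  let ⟨j, c, d⟩ := k r
  ⟨j, c, b j ▸ mul_ne_zero (a _) d⟩

theorem fl (h : Sim π ξ ξ') : fl π ξ = fl π ξ' := by
  obtain ⟨t, a, b⟩ := h
  unfold Nc.fl
  congr 1
  ext x
  refine exists₂_congr fun j j' => and_congr_right fun e => ?_
  rw [b, b, e, mul_div_mul_left _ _ (a _)]

theorem comp' {J' R' : Type} {π' : J' → R'} {i : J' → J} {ρ : R' → R} (e : ∀ j, π (i j) = ρ (π' j))
    (h : Sim π ξ ξ') : Sim π' (ξ ∘ i) (ξ' ∘ i) :=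
  let ⟨t, a, b⟩ := h
  ⟨t ∘ ρ, fun _ => a _, fun j => by simp [b, e]⟩

theorem aeval [Fintype J] [Fintype R] [DecidableEq R] (h : Sim π ξ ξ') {δ : R → ℤ}
    {g : MvPolynomial J ℂ} (hg : WHom (bw π) δ g) : ∃ c : K, c ≠ 0 ∧ aeval ξ' g = c * aeval ξ g := by
  obtain ⟨t, a, b⟩ := h
  refine ⟨∏ r, t r ^ δ r, Finset.prod_ne_zero_iff.2 fun r _ => zpow_ne_zero _ (a r), ?_⟩
  rw [aeval_def, aeval_def, eval₂_eq', eval₂_eq', Finset.mul_sum]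
  refine Finset.sum_congr rfl fun α hα => ?_
  simp only [b, mul_pow, Finset.prod_mul_distrib]
  suffices e : ∏ j, t (π j) ^ α j = ∏ r, t r ^ δ r by rw [e, mul_left_comm]
  simp only [← hg α hα]
  have k : ∀ r (s : Finset J) (f : J → ℤ), t r ^ ∑ j ∈ s, f j = ∏ j ∈ s, t r ^ f j := fun r s f => by
    induction s using Finset.cons_induction with
    | empty => simp
    | cons j s hj ih => rw [Finset.sum_cons, Finset.prod_cons, zpow_add₀ (a r), ih]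
  simp only [k]
  rw [Finset.prod_comm]
  refine Finset.prod_congr rfl fun j _ => ?_
  rw [Finset.prod_eq_single (π j) (fun r _ h => by simp [bw, h]) (by simp)]
  simp [bw]

variable {n m : ℕ} {V : Var n} {W : Var m} {ξ ξ' : V.J → K}

theorem comp (f : P287Q.Ext V W) (h : Sim V.π ξ ξ') : Sim W.π (ξ ∘ f.iJ) (ξ' ∘ f.iJ) :=
  h.comp' f.blk

theorem pt (h : Sim V.π ξ ξ') (k : Pt V ξ) : Pt V ξ' :=
  ⟨h.nz k.nz, fun δ g a b => let ⟨_, _, e⟩ := h.aeval a; by rw [e, k.van δ g a b, mul_zero]⟩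

theorem gq (h : Sim V.π ξ ξ') (k : Gq V ξ) : Gq V ξ' :=
  ⟨h.pt k.toPt, fun δ g a b => let ⟨_, c, e⟩ := h.aeval a
    k.gen δ g a ((mul_eq_zero.1 (e ▸ b)).resolve_left c)⟩

theorem gp (h : Sim V.π ξ ξ') (k : Gp V ξ) : Gp V ξ' := ⟨h.gq k.toGq, h.fl ▸ k.top⟩

end Sim

theorem fl_comp {J' R' : Type} {π' : J' → R'} {i : J' → J} {ρ : R' → R}
    (e : ∀ j, π (i j) = ρ (π' j)) (ξ : J → K) : fl π' (ξ ∘ i) ≤ fl π ξ :=
  IntermediateField.adjoin.mono _ _ _ fun _ ⟨j, j', a, b⟩ => ⟨i j, i j', by rw [e, e, a], b⟩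

theorem div_mem_fl (ξ : J → K) {j j' : J} (h : π j = π j') : ξ j / ξ j' ∈ fl π ξ :=
  IntermediateField.subset_adjoin _ _ ⟨j, j', h, rfl⟩

theorem rd_of {f : K} (h : f ∈ P.ring) : P.rd f = IsLocalRing.residue P.ring ⟨f, h⟩ := dif_pos h

theorem rd_mul' {f g : K} (h : f ∈ P.ring) (h' : g ∈ P.ring) : P.rd (f * g) = P.rd f * P.rd g := by
  rw [rd_of h, rd_of h', rd_of (mul_mem h h')]
  exact map_mul (IsLocalRing.residue P.ring) ⟨f, h⟩ ⟨g, h'⟩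

theorem rd_ne_iff {f : K} (h : f ∈ P.ring) : P.rd f ≠ 0 ↔ f ≠ 0 ∧ P.ord f = 0 := by
  rw [rd_of h]
  refine (IsLocalRing.residue_eq_zero_iff _).not.trans ?_
  have := ord_nonneg_of_mem P.toPlace h
  rw [mem_maximalIdeal_iff]
  by_cases h0 : f = 0
  · simp [h0]
  · simp [h0]
    omega

theorem rd_aeval (h : ∀ j, ξ j ∈ P.ring) (g : MvPolynomial J ℂ) :
    aeval ξ g ∈ P.ring ∧ P.rd (aeval ξ g) = aeval (fun j => P.rd (ξ j)) g := by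
  let c : ℂ →+* P.ring := (algebraMap ℂ K).codRestrict P.ring P.con
  have e : aeval ξ g = P.ring.subtype (eval₂ c (fun j => ⟨ξ j, h j⟩) g) := by
    rw [eval₂_comp_left]; rfl
  have k : aeval ξ g ∈ P.ring := e ▸ Subtype.prop _
  refine ⟨k, ?_⟩
  rw [rd_of k, show (⟨_, k⟩ : P.ring) = eval₂ c (fun j => ⟨ξ j, h j⟩) g from Subtype.ext e]
  refine (eval₂_comp_left _ _ _ _).trans ?_
  simp only [rd_of (h _)]
  rfl

namespace Rd

variable {ζ ζ' : J → P.κ}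

theorem ex [Finite J] (h : Nz π ξ) (P : Pl K) : ∃ ζ, Rd π P ξ ζ := by
  have k : ∀ r, ∃ j, (π j = r ∧ ξ j ≠ 0) ∧ ∀ j', π j' = r ∧ ξ j' ≠ 0 → P.ord (ξ j) ≤ P.ord (ξ j') :=
    fun r => exists_min_image {j | π j = r ∧ ξ j ≠ 0} (fun j => P.ord (ξ j)) (toFinite _) (h r)
  choose s a b using k
  refine ⟨_, fun r => ⟨s r, (a r).1, ?_⟩, fun j => (ξ (s (π j)))⁻¹ * ξ j,
    ⟨fun r => (ξ (s r))⁻¹, fun r => inv_ne_zero (a r).2, fun _ => rfl⟩, fun j => ⟨?_, rfl⟩⟩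
  · simp only [(a r).1, inv_mul_cancel₀ (a r).2]
    exact (rd_ne_iff (one_mem _)).2 ⟨one_ne_zero, ord_one _⟩
  by_cases e : ξ j = 0
  · simp [e]
  have := b _ j ⟨rfl, e⟩
  rw [← ord_nonneg_iff _ (mul_ne_zero (inv_ne_zero (a _).2) e),
    ord_mul _ (inv_ne_zero (a _).2) e, ord_inv]
  omega

theorem sim (h : Rd π P ξ ζ) (e : Sim π ξ ξ') : Rd π P ξ' ζ :=
  let ⟨a, x, b, c⟩ := h
  ⟨a, x, e.symm.trans b, c⟩

theorem uniq (h : Rd π P ξ ζ) (h' : Rd π P ξ ζ') : Sim π ζ ζ' := by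
  obtain ⟨a, x, b, c⟩ := h
  obtain ⟨a', x', b', c'⟩ := h'
  obtain ⟨t, t0, e⟩ := b.symm.trans b'
  have k : ∀ r, P.ord (t r) = 0 := fun r => by
    obtain ⟨j, rfl, d⟩ := a r
    obtain ⟨j', q, d'⟩ := a' (π j)
    rw [(c j).2, rd_ne_iff (c j).1] at d
    rw [(c' j').2, rd_ne_iff (c' j').1, e, q] at d'
    have k1 := ord_nonneg_of_mem P.toPlace (c' j).1
    have k2 := ord_nonneg_of_mem P.toPlace (c j').1
    rw [e, ord_mul _ (t0 _) d.1] at k1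
    have k3 := d'.2
    rw [ord_mul _ (t0 _) (right_ne_zero_of_mul d'.1)] at k3
    omega
  have m : ∀ r, t r ∈ P.ring := fun r => (ord_nonneg_iff _ (t0 r)).1 (k r).ge
  exact ⟨fun r => P.rd (t r), fun r => (rd_ne_iff (m r)).2 ⟨t0 r, k r⟩, fun j => by
    rw [(c' j).2, (c j).2, e, rd_mul' (m _) (c j).1]⟩

theorem comp' {J' R' : Type} {π' : J' → R'} {i : J' → J} {ρ : R' → R} (e : ∀ j, π (i j) = ρ (π' j))
    (h : Rd π P ξ ζ) (k : Nz π' (ζ ∘ i)) : Rd π' P (ξ ∘ i) (ζ ∘ i) :=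
  let ⟨_, x, b, c⟩ := h
  ⟨k, x ∘ i, b.comp' e, fun _ => c _⟩

variable {n m : ℕ} {V : Var n} {W : Var m} {ξ : V.J → K} {ζ : V.J → P.κ}

theorem pt (h : Rd V.π P ξ ζ) (k : Pt V ξ) : Pt V ζ := by
  obtain ⟨a, x, b, c⟩ := h
  refine ⟨a, fun δ g h1 h2 => ?_⟩
  rw [funext fun j => (c j).2, ← (rd_aeval (fun j => (c j).1) g).2, (b.pt k).van δ g h1 h2,
    rd_of (zero_mem _)]
  exact map_zero (IsLocalRing.residue P.ring)

theorem comp (hX : PTX) (f : P287Q.Ext V W) (h : Rd V.π P ξ ζ) (k : Pt V ξ) :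
    Rd W.π P (ξ ∘ f.iJ) (ζ ∘ f.iJ) := h.comp' f.blk (hX _ _ _ _ f _ _ (h.pt k)).nz

end Rd

theorem Pr.sim (h : Pr π ξ P) (e : Sim π ξ ξ') : Pr π ξ' P :=
  let ⟨ζ, a, b⟩ := h
  ⟨ζ, a.sim e, b⟩

theorem Sim.pr (e : Sim π ξ ξ') : Pr π ξ P ↔ Pr π ξ' P := ⟨fun h => h.sim e, fun h => h.sim e.symm⟩

theorem Rd.pr {ζ : J → P.κ} (h : Rd π P ξ ζ) : Pr π ξ P ↔ Algebra.IsAlgebraic (fl π ζ) P.κ :=
  ⟨fun ⟨_, a, b⟩ => (a.uniq h).fl ▸ b, fun b => ⟨ζ, h, b⟩⟩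

theorem alg_mono {L L' : IntermediateField ℂ K} (e : L ≤ L') (h : Algebra.IsAlgebraic L K) :
    Algebra.IsAlgebraic L' K :=
  ⟨fun x => (h.1 x).ringHom_of_comp_eq (IntermediateField.inclusion e).toRingHom (RingHom.id K)
    (IntermediateField.inclusion e).toRingHom.injective rfl⟩

variable {n m : ℕ}

/-- A prime divisor of the image is a prime divisor. -/
theorem Pr.mono (hX : PTX) {V : Var n} {W : Var m} (f : P287Q.Ext V W) {ξ : V.J → K} (k : Pt V ξ)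
    (h : Pr W.π (ξ ∘ f.iJ) P) : Pr V.π ξ P := by
  obtain ⟨ζ, a⟩ := Rd.ex k.nz P
  exact ⟨ζ, a, alg_mono (fl_comp f.blk ζ) ((a.comp hX f k).pr.1 h)⟩

theorem Pc.sim {Y : Var (n + 1)} {c : Ctr Y} {η η' : c.bl.J → K} (h : Pc c η P)
    (e : Sim c.bl.π η η') : Pc c η' P :=
  let ⟨ζ, a, b⟩ := h
  ⟨ζ, a.sim e, b⟩

end Vale.Agent.P287D.Nc
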