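import Vale.Agent.P287Q.Top.Bas
import Vale.Agent.P287Q.Hb.QTm

/-!
# P287D: maps of small rank kill the classes of large type
-/

namespace Vale.Agent.P287D.Nc

open Set Function Topology Filter MvPolynomial Module P291Z P269 P269.Holo P287Q P287Q.Mf
open scoped ContDiff ComplexConjugate

section lin

variable {W W' Y Y' : Type} [NormedAddCommGroup W] [NormedSpace ℂ W] [NormedAddCommGroup W']
  [NormedSpace ℂ W'] [FiniteDimensional ℂ W] [FiniteDimensional ℂ W'] [TopologicalSpace Y]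
  [TopologicalSpace Y'] {S : Set W} {S' : Set W'} {π : S → Y} {π' : S' → Y'} {p q r : ℕ}

/-- A form of large type vanishes on a small subspace. -/
theorem frm_low {f : (Fin (p + q + 1) → W) → ℂ} (hf : ContDiff ℝ ∞ f) {x : W}
    {T : Submodule ℂ W} (hT : finrank ℂ T ≤ r) (h : r < p ∨ r < q)
    (ht : ∀ (t : ℂ) (v : Fin (p + q) → W), (∀ i, v i ∈ T) →
      frm f x (t • v) = t ^ p * conj t ^ q * frm f x v) {v : Fin (p + q) → W}
    (hv : ∀ i, v i ∈ T) : frm f x v = 0 := by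
  have := FiniteDimensional.complete ℂ W
  let B : (Fin (finrank ℂ T) → ℂ) →L[ℂ] W :=
    (T.subtype ∘ₗ (finBasis ℂ T).equivFun.symm.toLinearMap).toContinuousLinearMap
  have a1 : AnalyticAt ℂ (fun z => x + B z) 0 := analyticAt_const.add (B.analyticAt 0)
  have a2 : fderiv ℂ (fun z => x + B z) 0 = B := by rw [fderiv_const_add, B.fderiv]
  obtain ⟨g, g1, -, g3⟩ := exists_comp a1 hf
  simp only [a2, map_zero, add_zero] at g3
  have a3 : H3.Mf0.TyF p q (Hdg.ofG g) (0 : Fin (finrank ℂ T) → ℂ) := fun t u => by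
    simp only [H3.Mf0.fm, Hdg.ofG_ofFn, g3]
    rw [← ht t (fun i => B (u i)) fun i => ((finBasis ℂ T).equivFun.symm (u i)).2]
    simp only [Pi.smul_apply, map_smul]
    rfl
  have a4 := congrFun (a3.big (H3.Mf0.gs_ofG g1) (by omega))
    fun i => (finBasis ℂ T).equivFun ⟨v i, hv i⟩
  simp only [H3.Mf0.fm, Hdg.ofG_ofFn, g3] at a4
  simpa [B] using a4

omit [TopologicalSpace Y] [TopologicalSpace Y'] in
/-- The pull-back along a map of small rank has every type. -/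
theorem hdK_low {x : S} {k : ℕ} (hS : MfdAt S k x) {g : Y → Y'} {Φ : W → W'}
    (hΦ : AnalyticAt ℂ Φ x) (h : ∀ᶠ y : S in 𝓝 x, ∃ h : Φ y ∈ S', g (π y) = π' ⟨Φ y, h⟩)
    {a : Coch Y'} {h0 : Φ x ∈ S'} (ha : HdAt (fun x => tn S' x) π' p q a ⟨Φ x, h0⟩)
    (hr : finrank ℂ ((tn S x).map (fderiv ℂ Φ x : W →ₗ[ℂ] W')) ≤ r) (hp : r < p ∨ r < q)
    (χ : ℂ → ℂ) : HdK (fun x => tn S x) π (p + q) χ (pull g a) x := by
  classical
  have := FiniteDimensional.complete ℂ W'
  obtain ⟨F, h1, h2, h3⟩ := ha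
  obtain ⟨f, h4, h5, h6⟩ := exists_comp hΦ h1
  let s : S → S' := fun y => if h : Φ y ∈ S' then ⟨_, h⟩ else ⟨_, h0⟩
  have h7 : ∀ᶠ y in 𝓝 x, (s y).1 = Φ y ∧ π' (s y) = g (π y) := h.mono fun y ⟨k1, k2⟩ => by
    simp only [s, dif_pos k1, k2, and_self]
  have h8 : Tendsto s (𝓝 x) (𝓝 ⟨_, h0⟩) := tendsto_subtype_rng.2
    ((hΦ.continuousAt.tendsto.comp continuous_subtype_val.continuousAt.tendsto).congr'
      (h7.mono fun _ k => k.1.symm))
  have h9 : ∀ v : Fin (p + q) → W, (∀ i, v i ∈ tn S x) → frm f x v = 0 := fun v hv => by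
    rw [h6]
    refine frm_low h1 hr hp (fun t u hu => h3 t u fun i => ?_) fun i => ⟨v i, hv i, rfl⟩
    obtain ⟨w, b, e⟩ := hu i
    exact e ▸ fderiv_map_tn hS hΦ
      ((ev_sub x.2 (p := fun s => Φ s ∈ S')).1 (h.mono fun _ k => k.1)) b
  refine ⟨f, h4, ?_, fun t v hv => ?_⟩
  · filter_upwards [(Mf.tendsto_diag h8).eventually h2,
      (Mf.tendsto_diag continuous_subtype_val.continuousAt.tendsto).eventually h5, ev_diag h7]
      with z k1 k2 k3
    rw [k2, ← funext fun i => (k3 i).1, ← k1, funext fun i => (k3 i).2]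
    exact congrArg a.1 (List.map_ofFn ..)
  · rw [h9 v hv, h9 (t • v) fun i => (tn S x).smul_mem t (hv i), mul_zero]

omit [FiniteDimensional ℂ W] in
/-- A map of large rank has independent components. -/
theorem exists_surj {J : Type} [Fintype J] (L : W →ₗ[ℂ] J → ℂ)
    (h : r < finrank ℂ (LinearMap.range L)) :
    ∃ j : Fin (r + 1) → J, Surjective fun v i => L v (j i) := by
  classical
  let φ : J → Dual ℂ W := fun j => LinearMap.proj j ∘ₗ L
  have e : finrank ℂ (Submodule.span ℂ (range φ)) = finrank ℂ (LinearMap.range L) := by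
    rw [← LinearMap.finrank_range_dualMap_eq_finrank_range, LinearMap.range_eq_map,
      ← (Pi.basisFun ℂ J).dualBasis.span_eq, Submodule.map_span, ← range_comp]
    refine congrArg (fun s => finrank ℂ (Submodule.span ℂ (range s))) (funext fun j => ?_)
    ext v
    simp [φ]
  obtain ⟨κ, a, a1, a2, a3⟩ := exists_linearIndependent' ℂ φ
  have : Fintype κ := Fintype.ofInjective a a1
  have b : r + 1 ≤ Fintype.card κ := by
    rw [← finrank_span_eq_card a3, a2, e]; exact h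
  obtain ⟨ι⟩ := Function.Embedding.nonempty_of_card_le ((Fintype.card_fin _).le.trans b)
  have li : LinearIndependent ℂ fun i => φ (a (ι i)) := a3.comp ι ι.injective
  refine ⟨fun i => a (ι i), ?_⟩
  let M : W →ₗ[ℂ] Fin (r + 1) → ℂ := LinearMap.pi fun i => φ (a (ι i))
  change Surjective M
  rw [← LinearMap.dualMap_injective_iff, injective_iff_map_eq_zero]
  intro l hl
  refine (Pi.basisFun ℂ _).ext fun i => Fintype.linearIndependent_iff.1 li
    (fun i => l (Pi.basisFun ℂ _ i)) (LinearMap.ext fun v => ?_) i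
  have := LinearMap.congr_fun hl v
  rw [LinearMap.dualMap_apply, ← (Pi.basisFun ℂ _).sum_repr (M v), map_sum] at this
  simpa [M, mul_comm] using this

end lin

variable {n m r : ℕ} {V : Var n} {W : Var m}

/-- The affine coordinates given by a choice of one field in each block. -/
noncomputable def aff {J R : Type} {π : J → R} (s : Sel π) (y : J → ℂ) : J → ℂ :=
  fun j => y j / y (s.1 (π j))

/-- Any `r + 1` affine coordinates of `W` are algebraically dependent on the image of `f`. -/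
def Dep (f : Ext V W) (r : ℕ) : Prop := ∀ (s : Sel W.π) (j : Fin (r + 1) → W.J),
  ∃ u : MvPolynomial (Fin (r + 1)) ℂ, u ≠ 0 ∧ ∀ y ∈ V.A, (∀ ρ, y (f.iJ (s.1 ρ)) ≠ 0) →
    eval (fun i => aff s (y ∘ f.iJ) (j i)) u = 0

theorem aff_eq {J R : Type} {π : J → R} (s : Sel π) (y : J → ℂ) :
    aff s y = scl π (fun ρ => y (s.1 ρ))⁻¹ y := funext fun _ => div_eq_inv_mul _ _

theorem an_aff (f : Ext V W) (s : Sel W.π) {y : V.J → ℂ} (h : ∀ ρ, y (f.iJ (s.1 ρ)) ≠ 0) :
    AnalyticAt ℂ (fun z : V.J → ℂ => aff s (z ∘ f.iJ)) y :=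
  analyticAt_pi_iff.2 fun _ => (analyticAt_pi_iff.1 analyticAt_id _).div
    (analyticAt_pi_iff.1 analyticAt_id _) (h _)

theorem Dep.rank {f : Ext V W} (h : Dep f r) (s : Sel W.π) {y : V.J → ℂ} (hy : y ∈ V.A)
    (hs : ∀ ρ, y (f.iJ (s.1 ρ)) ≠ 0) : finrank ℂ ((tn V.A y).map
      (fderiv ℂ (fun z : V.J → ℂ => aff s (z ∘ f.iJ)) y : (V.J → ℂ) →ₗ[ℂ] W.J → ℂ)) ≤ r := by
  by_contra! hr
  obtain ⟨ψ, h1, rfl⟩ := (V.pv.mfd y hy).prm
  have a1 := an_aff f s hs
  rw [h1.tn_eq, ← LinearMap.range_comp] at hr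
  obtain ⟨j, hj⟩ := exists_surj _ hr
  obtain ⟨u, u0, hu⟩ := h s j
  let P : (W.J → ℂ) →L[ℂ] Fin (r + 1) → ℂ := ContinuousLinearMap.pi fun i => .proj (j i)
  have a2 := (P.hasStrictFDerivAt.comp _ (a1.hasStrictFDerivAt.comp 0 h1.an.hasStrictFDerivAt)
    ).map_nhds_eq_of_surj (LinearMap.range_eq_top.2 hj)
  have a3 : ∀ᶠ w in 𝓝 (P (aff s (ψ 0 ∘ f.iJ))), eval w u = 0 := by
    refine a2.ge (mem_map.2 ?_)
    filter_upwards [h1.mem, h1.an.continuousAt.eventually (eventually_all.2 fun ρ =>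
      (continuous_apply _).continuousAt.eventually_ne (hs ρ))] with z b1 b2 using hu _ b1 b2
  exact u0 (MvPolynomial.funext fun w => by
    simpa using congrFun (AnalyticOnNhd.eq_of_eventuallyEq (f := fun w => eval w u) (g := 0)
      (fun w _ => AnalyticOnNhd.eval_mvPolynomial u w trivial) analyticOnNhd_const a3) w)

/-- **The pull-back along a map of small rank has every type.** -/
theorem Dep.mem {f : Ext V W} (h : Dep f r) {p q p' q' : ℕ} (hp : r < p ∨ r < q)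
    (e : p + q = p' + q') {c : H W.X} (hc : c ∈ W.Hg p q) : f.pb c ∈ V.Hg p' q' := by
  obtain ⟨a, h2, rfl, h3⟩ := hc
  refine ⟨⟨pull f.q a.1, cocycle_pull f.q.2 a.2⟩, e ▸ h2.pull _, rfl, fun x => ?_⟩
  choose s s1 s2 using W.pv.sub (f.map _ x.2)
  have a1 : ∀ y ∈ V.A, (∀ ρ, y (f.iJ (s ρ)) ≠ 0) → aff ⟨s, s1⟩ (y ∘ f.iJ) ∈ W.A := fun y b1 b2 =>
    aff_eq _ _ ▸ W.pv.inv _ (unit_inv (unit_iff.2 b2)) _ (f.map _ b1)
  have := hdK_low (π := V.pt) (π' := W.pt) (g := f.q) (V.pv.mfd _ x.2) (an_aff f ⟨s, s1⟩ s2)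
    ((((continuous_subtype_val.continuousAt.eventually (eventually_all.2 fun ρ =>
      (continuous_apply _).continuousAt.eventually_ne (s2 ρ)))).mono fun y b =>
      ⟨a1 _ y.2 b, (f.q_pt y).trans (W.pt_eq.2 ⟨_, unit_inv (unit_iff.2 b), aff_eq _ _⟩)⟩))
    (h3 ⟨_, a1 _ x.2 s2⟩) (h.rank _ x.2 s2) hp fun t => t ^ p' * conj t ^ q'
  rw [e] at this
  exact this

/-- **A map of small rank kills the classes of large type.** -/
theorem Dep.pb_zero {f : Ext V W} (h : Dep f r) {p q : ℕ} (hp : r < p ∨ r < q) (hn : n < p + q)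
    {c : H W.X} (hc : c ∈ W.Hg p q) : f.pb c = 0 :=
  Hb.QT_out V.qm (V.Hg_eq _ _ ▸ h.mem (p' := p + q) (q' := 0) hp rfl hc)
    (.inl (by exact_mod_cast hn))

end Vale.Agent.P287D.Nc
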