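import Vale.Agent.P287D.Nc.St
import Vale.Agent.P287D.Nc.Rk
import Vale.Agent.P287Q.Pv.Chow

/-!
# P287D: the row RK
-/

namespace Vale.Agent.P287D.Nc

open Set Function MvPolynomial P291Z P269 P287Q

/-- Clearing denominators in a polynomial in ratios of coordinates. -/
theorem exists_hom {J R ι : Type} [Fintype J] [Fintype R] [DecidableEq R] [Fintype ι] {π : J → R}
    (a b : ι → J) (h : ∀ i, π (a i) = π (b i)) (u : MvPolynomial ι ℂ) :
    ∃ (N : ℕ) (g : MvPolynomial J ℂ), WHom (bw π) (N • ∑ i, bw π (b i)) g ∧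
      ∀ (K : Type) [Field K] [Algebra ℂ K] (z : J → K), (∀ i, z (b i) ≠ 0) →
        aeval z g = (∏ i, z (b i)) ^ N * aeval (fun i => z (a i) / z (b i)) u := by
  classical
  simp only [whom_iff]
  have hD := IsWeightedHomogeneous.prod Finset.univ (fun i => (X (b i) : MvPolynomial J ℂ)) _
    fun i _ => isWeightedHomogeneous_X ℂ (bw π) (b i)
  induction u using MvPolynomial.induction_on with
  | C c => exact ⟨0, C c, by simpa using isWeightedHomogeneous_C _ c, fun K _ _ z _ => by simp⟩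
  | add p q hp hq =>
    obtain ⟨N, g, h1, h2⟩ := hp
    obtain ⟨M, g', k1, k2⟩ := hq
    refine ⟨N + M, g * (∏ i, X (b i)) ^ M + (∏ i, X (b i)) ^ N * g', ?_, fun K _ _ z hz => ?_⟩
    · rw [add_smul]
      exact (h1.mul (hD.pow M)).add ((hD.pow N).mul k1)
    · simp only [map_add, map_mul, map_pow, map_prod, aeval_X, h2 K z hz, k2 K z hz]
      ring
  | mul_X p i hp =>
    obtain ⟨N, g, h1, h2⟩ := hp
    refine ⟨N + 1, g * (X (a i) * ∏ k ∈ Finset.univ.erase i, X (b k)), ?_, fun K _ _ z hz => ?_⟩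
    · rw [succ_nsmul, ← Finset.add_sum_erase _ _ (Finset.mem_univ i),
        show bw π (b i) = bw π (a i) from congrArg (Pi.single · 1) (h i).symm]
      rw [← Finset.add_sum_erase _ _ (Finset.mem_univ i),
        show bw π (b i) = bw π (a i) from congrArg (Pi.single · 1) (h i).symm] at h1
      exact h1.mul ((isWeightedHomogeneous_X ℂ _ _).mul (IsWeightedHomogeneous.prod _ _ _
        fun k _ => isWeightedHomogeneous_X ℂ (bw π) (b k)))
    · simp only [map_mul, map_prod, aeval_X, h2 K z hz]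
      rw [pow_succ, ← Finset.mul_prod_erase _ _ (Finset.mem_univ i)]
      have := hz i
      field_simp

theorem whom_X {J R : Type} [Fintype J] [Fintype R] [DecidableEq R] (π : J → R) (j : J) :
    WHom (bw π) (bw π j) (X j) := whom_iff.2 (isWeightedHomogeneous_X ℂ _ j)

variable {n m r : ℕ} {V : Var n} {W : Var m} {K : Type} [Field K] [Algebra ℂ K] {ξ : V.J → K}

theorem Gq.ne (h : Gq V ξ) {y : V.J → ℂ} (hy : y ∈ V.A) {j : V.J} (hj : y j ≠ 0) : ξ j ≠ 0 :=
  fun e => hj (by simpa using h.gen _ _ (whom_X V.π j) (by simpa using e) y hy)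

theorem dep_of (f : P287Q.Ext V W) (h : Gq V ξ)
    (hr : Algebra.trdeg ℂ (fl W.π (ξ ∘ f.iJ)) < (r + 1 : ℕ)) : Dep f r := fun s j => by
  by_cases h0 : ∀ ρ, ξ (f.iJ (s.1 ρ)) ≠ 0
  swap
  · exact ⟨1, one_ne_zero, fun y hy k => (h0 fun ρ => h.ne hy (k ρ)).elim⟩
  let x : Fin (r + 1) → fl W.π (ξ ∘ f.iJ) := fun i =>
    ⟨ξ (f.iJ (j i)) / ξ (f.iJ (s.1 (W.π (j i)))),
      IntermediateField.subset_adjoin _ _ ⟨_, _, (s.2 _).symm, rfl⟩⟩
  have hx : ¬ AlgebraicIndependent ℂ x := fun k => hr.not_ge (by simpa using k.cardinalMk_le_trdeg)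
  rw [algebraicIndependent_iff] at hx
  push Not at hx
  obtain ⟨u, h1, h2⟩ := hx
  obtain ⟨N, g, k1, k2⟩ := exists_hom (π := V.π) (fun i => f.iJ (j i))
    (fun i => f.iJ (s.1 (W.π (j i)))) (fun i => by rw [f.blk, f.blk, s.2]) u
  refine ⟨u, h2, fun y hy k => ?_⟩
  have h3 : aeval ξ g = 0 := by
    have := congrArg (fl W.π (ξ ∘ f.iJ)).val h1
    rw [← AlgHom.comp_apply, comp_aeval, map_zero] at this
    rw [k2 K ξ fun i => h0 _]
    exact mul_eq_zero_of_right _ this
  have h4 := k2 ℂ y fun i => k _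
  simp only [aeval_eq_eval] at h4
  exact (mul_eq_zero.1 (h4.symm.trans (h.gen _ _ k1 h3 y hy))).resolve_left
    (pow_ne_zero _ (Finset.prod_ne_zero_iff.2 fun i _ => k _))

/-- **RK** -/
theorem rk : RK := fun n m V W f K _ _ ξ p q h hp hn x hx => by
  obtain _ | r := p
  · exact absurd hp (by simp)
  exact (dep_of f h hp).pb_zero (.inl (Nat.lt_succ_self r)) hn hx

end Vale.Agent.P287D.Nc
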