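import Vale.Agent.P287D.Nc.Bas
import Vale.Agent.P287D.Nc.RkR

/-!
# P287D, the net count: normalised points, the Nullstellensatz, places of prime divisors
-/

noncomputable section

namespace Vale.Agent.P287D.Nc.Pa

open Set Function MvPolynomial P287Q P297Z.Pl
open Vale.Agent.P297 (Place)

variable {J R K : Type} [Field K] {π : J → R} {ξ : J → K}

/-- normalised coordinates -/
def nrm (s : Sel π) (ξ : J → K) : J → K := fun j => (ξ (s.1 (π j)))⁻¹ * ξ j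

theorem sim_nrm (s : Sel π) (h : ∀ r, ξ (s.1 r) ≠ 0) : Sim π ξ (nrm s ξ) :=
  ⟨fun r => (ξ (s.1 r))⁻¹, fun r => inv_ne_zero (h r), fun _ => rfl⟩

theorem nrm_one (s : Sel π) (h : ∀ r, ξ (s.1 r) ≠ 0) (r : R) : nrm s ξ (s.1 r) = 1 := by
  rw [nrm, s.2, inv_mul_cancel₀ (h r)]

theorem sel (h : Nz π ξ) : ∃ s : Sel π, ∀ r, ξ (s.1 r) ≠ 0 := by
  choose s a b using h
  exact ⟨⟨s, a⟩, b⟩

theorem sim_of {ξ' : J → K} (h : Nz π ξ) (h' : Nz π ξ')
    (k : ∀ j j', π j = π j' → ξ j * ξ' j' = ξ j' * ξ' j) : Sim π ξ ξ' := by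
  obtain ⟨s, a⟩ := sel h
  have b : ∀ j, ξ' j = ξ' (s.1 (π j)) / ξ (s.1 (π j)) * ξ j := fun j => by
    rw [div_mul_eq_mul_div, eq_div_iff (a _), mul_comm, k _ _ (s.2 _), mul_comm]
  refine ⟨fun r => ξ' (s.1 r) / ξ (s.1 r), fun r e => ?_, b⟩
  obtain ⟨j, rfl, c⟩ := h' r
  exact c ((b j).trans (mul_eq_zero_of_left e _))

/-- A prime ideal which is locally principal gives a place. -/
theorem mk_place {A : Type} [CommRing A] [IsDomain A] [IsNoetherianRing A] [Algebra A K]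
    [IsFractionRing A K] (p : Ideal A) [p.IsPrime] {e : A} (he : e ∈ p) (h0 : e ≠ 0)
    (h : ∀ a ∈ p, ∃ s ∉ p, ∃ b, s * a = b * e) : ∃ P : Place K, ∀ f, f ∈ P.ring ↔
      ∃ a, ∃ s ∉ p, f = algebraMap A K a * (algebraMap A K s)⁻¹ := by
  let S := Localization.subalgebra.ofField K p.primeCompl p.primeCompl_le_nonZeroDivisors
  have : IsLocalization.AtPrime S p := Localization.subalgebra.isLocalization_ofField K _ _
  have := IsLocalization.AtPrime.isLocalRing S p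
  have := IsLocalization.isNoetherianRing p.primeCompl S inferInstance
  have k : IsDiscreteValuationRing S := by
    refine ((IsDiscreteValuationRing.TFAE S (IsLocalization.AtPrime.not_isField A (P := p)
      (fun a => h0 (by simpa [a] using he)) S)).out 4 0).1
        (⟨algebraMap A S e, ?_⟩ : (IsLocalRing.maximalIdeal S).IsPrincipal)
    rw [← IsLocalization.AtPrime.map_eq_maximalIdeal p S]
    refine le_antisymm (Ideal.map_le_iff_le_comap.2 fun a ha => ?_)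
      ((Ideal.span_singleton_le_iff_mem _).2 (Ideal.mem_map_of_mem _ he))
    obtain ⟨s, hs, b, c⟩ := h a ha
    refine Ideal.mem_comap.2 ((Ideal.unit_mul_mem_iff_mem _
      (IsLocalization.map_units S (⟨s, hs⟩ : p.primeCompl))).1 ?_)
    rw [← map_mul, c, map_mul]
    exact Ideal.mul_mem_left _ _ (Ideal.mem_span_singleton_self _)
  have k' : ∀ f : K, f ∈ S.toSubring ∨ f⁻¹ ∈ S.toSubring := fun f =>
    (ValuationRing.isInteger_or_isInteger S f).imp (fun ⟨a, b⟩ => b ▸ a.2) fun ⟨a, b⟩ => b ▸ a.2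
  exact ⟨⟨.ofSubring _ k', k⟩, fun f => exists₂_congr fun a s => exists_prop⟩

variable [Algebra ℂ K]

theorem aeval_mem {s : Sel π} (h : ∀ r, ξ (s.1 r) = 1) (p : MvPolynomial J ℂ) :
    aeval ξ p ∈ fl π ξ := by
  have k : Algebra.adjoin ℂ (range ξ) ≤ (fl π ξ).toSubalgebra := Algebra.adjoin_le (by
    rintro _ ⟨j, rfl⟩
    simpa [h] using div_mem_fl ξ (s.2 (π j)).symm)
  exact k (Algebra.adjoin_range_eq_range_aeval ℂ ξ ▸ ⟨p, rfl⟩)

theorem frac (h : fl π ξ = ⊤) (f : K) : ∃ p q : MvPolynomial J ℂ, f = aeval ξ p / aeval ξ q := by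
  refine (IntermediateField.mem_adjoin_range_iff ℂ ξ f).1 ((IntermediateField.adjoin_le_iff.2 ?_ :
    fl π ξ ≤ _) (h.ge trivial))
  rintro _ ⟨j, j', -, rfl⟩
  exact div_mem (IntermediateField.subset_adjoin _ _ ⟨j, rfl⟩)
    (IntermediateField.subset_adjoin _ _ ⟨j', rfl⟩)

theorem rd_nrm {P : Pl K} {ζ : J → P.κ} (h : Rd π P ξ ζ) (s : Sel π) (hs : ∀ r, ζ (s.1 r) ≠ 0) :
    (∀ r, ξ (s.1 r) ≠ 0) ∧ ∀ j, nrm s ξ j ∈ P.ring ∧ nrm s ζ j = P.rd (nrm s ξ j) := by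
  obtain ⟨-, x, ⟨t, a, b⟩, c⟩ := h
  have k : ∀ r, x (s.1 r) ≠ 0 ∧ P.ord (x (s.1 r)) = 0 := fun r =>
    (rd_ne_iff (c _).1).1 ((c _).2 ▸ hs r)
  refine ⟨fun r e => (k r).1 (by rw [b, e, mul_zero]), fun j => ?_⟩
  have k1 := ((ord_eq_zero_iff _ (k (π j)).1).1 (k _).2).2
  have e : nrm s ξ j = (x (s.1 (π j)))⁻¹ * x j := by
    rw [b, b, s.2, mul_inv, mul_mul_mul_comm, inv_mul_cancel₀ (a _), one_mul, nrm]
  refine e ▸ ⟨mul_mem k1 (c j).1, ?_⟩
  rw [rd_mul' k1 (c j).1, nrm, ← (c j).2, (c _).2]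
  congr 1
  refine (eq_inv_of_mul_eq_one_left ?_).symm
  rw [← rd_mul' k1 (c _).1, inv_mul_cancel₀ (k _).1, rd_of (one_mem _)]
  exact map_one (IsLocalRing.residue P.ring)

theorem rd_nrm' {P : Pl K} {ζ : J → P.κ} (h : Rd π P ξ ζ) (s : Sel π) (hs : ∀ r, ζ (s.1 r) ≠ 0) :
    Rd π P ξ (nrm s ζ) :=
  ⟨(sim_nrm s hs).nz h.1, _, sim_nrm s (rd_nrm h s hs).1, (rd_nrm h s hs).2⟩

/-- the Nullstellensatz with values in any algebra -/
theorem nss {σ T : Type} [Finite σ] [CommRing T] [Algebra ℂ T] {x : σ → T} {p : MvPolynomial σ ℂ}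
    (h : ∀ y, (∀ q : MvPolynomial σ ℂ, aeval x q = 0 → eval y q = 0) → eval y p = 0) :
    IsNilpotent (aeval x p) := by
  obtain ⟨m, hm⟩ : p ∈ (RingHom.ker (aeval x : MvPolynomial σ ℂ →ₐ[ℂ] T)).radical := by
    rw [← vanishingIdeal_zeroLocus_eq_radical (K := ℂ)]
    intro y hy
    rw [aeval_eq_eval]
    exact h y fun q e => by simpa only [aeval_eq_eval] using hy q e
  exact ⟨m, (map_pow (aeval x : MvPolynomial σ ℂ →ₐ[ℂ] T) p m).symm.trans hm⟩

theorem ff_trdeg {n : ℕ} (h : FF K n) : Algebra.trdeg ℂ K = n := by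
  obtain ⟨y, hy, hf⟩ := h
  rw [← (hy.isTranscendenceBasis_iff_isAlgebraic.2 (IntermediateField.isAlgebraic_adjoin_iff_top.1
    inferInstance)).cardinalMk_eq_trdeg, Cardinal.mk_fin]

theorem trdeg_alg {L : IntermediateField ℂ K} (h : Algebra.IsAlgebraic L K) :
    Algebra.trdeg ℂ L = Algebra.trdeg ℂ K := by
  rw [← trdeg_add_eq ℂ L (A := K), trdeg_eq_zero_iff.2 h, add_zero]

variable {n : ℕ} {V : Var n} {x : V.J → K}

theorem eqs (V : Var n) : ∃ (k : ℕ) (δ : V.R → ℤ) (G : Fin k → MvPolynomial V.J ℂ),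
    Cut V.π (Ust V.π) V.A δ G :=
  let ⟨k, δ, G, _, h, _⟩ := chow V.J V.R Empty V.π 0 V.A n V.pv fun τ _ y hy => by
    rwa [show tw 0 τ y = y from funext fun j => by simp [tw]]
  ⟨k, δ, G, h⟩

/-- complex points in the closure of a point of `V` -/
theorem mem_of (h : Pt V x) {y : V.J → ℂ} (hy : y ∈ Ust V.π)
    (k : ∀ q : MvPolynomial V.J ℂ, aeval x q = 0 → eval y q = 0) : y ∈ V.A :=
  let ⟨_, _, _, c⟩ := eqs V
  (c.zero y hy).2 (funext fun i => k _ (h.van _ _ (c.hom i) fun z hz =>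
    congrFun ((c.zero z (c.sub hz)).1 hz) i))

theorem ker_pt (h : Pt V x) (s : Sel V.π) (hx : ∀ r, x (s.1 r) = 1) {p : MvPolynomial V.J ℂ}
    (hp : ∀ y ∈ V.A, (∀ r, y (s.1 r) = 1) → eval y p = 0) : aeval x p = 0 := by
  obtain ⟨N, g, a, b⟩ := exists_hom (π := V.π) id (fun j => s.1 (V.π j)) (fun j => (s.2 _).symm) p
  have c := (whom_iff.1 a).mul (IsWeightedHomogeneous.prod Finset.univ
    (fun r => (X (s.1 r) : MvPolynomial V.J ℂ)) _ fun r _ => isWeightedHomogeneous_X ℂ (bw V.π) _)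
  have d := h.van _ _ (whom_iff.2 c) fun y hy => by
    rw [map_mul, map_prod]
    by_cases e : ∀ r, y (s.1 r) ≠ 0
    · have k := hp _ (V.pv.inv (fun r => (y (s.1 r))⁻¹) (unit_iff.2 fun r => inv_ne_zero (e r)) y hy)
        (nrm_one s e)
      have k' := b ℂ y fun j => e _
      simp only [aeval_eq_eval, div_eq_inv_mul] at k'
      exact mul_eq_zero_of_left (k'.trans (mul_eq_zero_of_right _ k)) _
    · push Not at e
      obtain ⟨r, e⟩ := e
      exact mul_eq_zero_of_right _ (Finset.prod_eq_zero (Finset.mem_univ r) (by simpa using e))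
  simpa [b K x (by simp [hx]), hx] using d

theorem ker_gq (h : Gq V x) (s : Sel V.π) (hx : ∀ r, x (s.1 r) = 1) {p : MvPolynomial V.J ℂ}
    (hp : aeval x p = 0) : ∀ y ∈ V.A, (∀ r, y (s.1 r) = 1) → eval y p = 0 := fun y hy e => by
  obtain ⟨N, g, a, b⟩ := exists_hom (π := V.π) id (fun j => s.1 (V.π j)) (fun j => (s.2 _).symm) p
  have c := h.gen _ _ a (by simpa [b K x (by simp [hx]), hx] using hp) y hy
  have d := b ℂ y (by simp [e])
  simp only [aeval_eq_eval] at d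
  simpa [d, e] using c

end Vale.Agent.P287D.Nc.Pa
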