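import Vale.Agent.P287D.Nc.Ptx
import Vale.Agent.P287D.Nc.Pa0
import Vale.Agent.P287Q.Cnt.Poly
import Vale.Agent.P287Q.Us.Bir

/-!
# P287D: entire forms are polynomials, the row GPD
-/

set_option linter.unusedSectionVars false

namespace Vale.Agent.P287D.Nc

open Set Function MvPolynomial P287Q

namespace Sp

/-- Entire forms are polynomials. -/
theorem frm_poly {J R : Type} [Fintype J] [Fintype R] [DecidableEq R] {π : J → R} {μ : R → ℕ}
    {F : (J → ℂ) → ℂ} (h : Frm π μ F) :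
    ∃ Q, WHom (bw π) (fun r => μ r) Q ∧ ∀ x, eval x Q = F x := by
  classical
  obtain ⟨p, -, e⟩ := P269.Cnt.Poly.nat (I := Option J) (f := fun v => F (v ∘ some)) (∑ r, μ r)
    (fun v _ => (h.an _).comp (an_pre some v)) fun s s0 v _ => by
      rw [← Finset.prod_pow_eq_pow_sum]
      exact h.hom (fun _ => s) (unit_iff.2 fun _ => s0) (v ∘ some)
  obtain ⟨q, k⟩ : ∃ q : MvPolynomial J ℂ, ∀ x, eval x q = F x :=
    ⟨aeval (fun o : Option J => o.elim 1 X) p, fun x => by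
      refine Eq.trans ?_ (e (fun o => o.elim 1 x) fun a => one_ne_zero (congrFun a none))
      rw [← aeval_eq_eval, ← aeval_eq_eval, comp_aeval_apply]
      exact congrArg (aeval · p) (funext fun o => by cases o <;> simp)⟩
  have f := weightedHomogeneousComponent_finsupp (w := bw π) q
  have c := fun m => whom_iff.2 (weightedHomogeneousComponent_isWeightedHomogeneous (w := bw π) m q)
  refine ⟨_, c _, fun x => sub_eq_zero.1 ?_⟩
  have := Chow.indep (insert (fun r => (μ r : ℤ)) f.toFinset) (fun m =>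
    eval x (weightedHomogeneousComponent (bw π) m q) - if m = (fun r => (μ r : ℤ)) then F x else 0)
    (fun τ hτ => ?_) _ (Finset.mem_insert_self _ _)
  · simpa using this
  simp only [mul_sub, Finset.sum_sub_distrib, ← (c _).eval_tw hτ, mul_ite, mul_zero,
    Finset.sum_ite_eq', Finset.mem_insert_self, if_true]
  rw [← map_sum, ← finsum_eq_sum_of_support_subset _ fun m hm =>
    Finset.mem_insert_of_mem (f.mem_toFinset.2 hm),
    sum_weightedHomogeneousComponent, k, tw_bw, h.hom τ hτ]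
  simp

variable {n m : ℕ} {V : Var n} {W : Var m} {K : Type} [Field K] [Algebra ℂ K]

/-- Normalisation of the image of a point. -/
theorem up (f : P287Q.Ext V W) {ξ : V.J → K} (h : Nz W.π (ξ ∘ f.iJ)) :
    ∃ (ξ' : V.J → K) (s : Sel W.π), Sim V.π ξ ξ' ∧ ∀ r, (ξ' ∘ f.iJ) (s.1 r) = 1 := by
  obtain ⟨s, a⟩ := Pa.sel h
  refine ⟨_, s, ⟨extend f.iR (fun r => (ξ (f.iJ (s.1 r)))⁻¹) 1, fun r => ?_, fun _ => rfl⟩,
    fun r => ?_⟩
  · by_cases e : ∃ a, f.iR a = r
    · obtain ⟨r, rfl⟩ := e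
      rw [f.injR.extend_apply]
      exact inv_ne_zero (a r)
    · rw [extend_apply' _ _ _ e]
      exact one_ne_zero
  · simp only [comp_apply, f.blk, s.2, f.injR.extend_apply]
    exact inv_mul_cancel₀ (a r)

end Sp

open Sp in
/-- **GPD** -/
theorem gpd : GPD := fun n V W f K _ _ ξ₀ h₀ ⟨μ, G, d, s, hG, hs, c, x₀, h1, h2⟩ => by
  obtain ⟨ξ, σ, e, h3⟩ := up f (ptx _ _ _ _ f _ _ h₀.toPt).nz
  have h := e.gp h₀
  refine (e.comp f).symm.gp ?_
  have g : Gq W (ξ ∘ f.iJ) := ⟨ptx _ _ _ _ f _ _ h.toPt, fun δ g a b => by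
    by_contra! k
    obtain ⟨y, a1, a2, a3⟩ := W.exists_ne_ne hG.an (an_eval g) ⟨x₀, h1, h2⟩ k
    have := h.gen _ _ (whom_rename f.blk a) ((aeval_rename _ _ _).trans b) _ (c.mem y ⟨a1, a2⟩)
    rw [eval_rename, c.inv y ⟨a1, a2⟩] at this
    exact a3 this⟩
  refine ⟨g, top_unique (h.top.ge.trans ?_)⟩
  obtain ⟨Q, q1, q2⟩ := frm_poly hG
  choose S s1 s2 using fun j => frm_poly (hs j)
  have k : Sim V.π ξ fun j => aeval (ξ ∘ f.iJ) (S j) :=
    Pa.sim_of h.nz (fun r => ?_) fun j j' a => ?_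
  · rw [k.fl]
    refine IntermediateField.adjoin_le_iff.2 ?_
    rintro _ ⟨j, j', -, rfl⟩
    exact div_mem (Pa.aeval_mem h3 _) (Pa.aeval_mem h3 _)
  · obtain ⟨j, a, b⟩ := V.pv.sub (c.mem x₀ ⟨h1, h2⟩) r
    exact ⟨j, a, fun e => b ((s2 j _).symm.trans (g.gen _ _ (s1 j) e _ h1))⟩
  have := van' h.toPt (p := rename f.iJ Q *
    (X j * rename f.iJ (S j') - X j' * rename f.iJ (S j))) fun y hy => ?_
  · simp only [map_mul, map_sub, aeval_rename, aeval_X] at this
    exact sub_eq_zero.1 ((mul_eq_zero.1 this).resolve_left fun e =>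
      h2 ((q2 _).symm.trans (g.gen _ _ q1 e _ h1)))
  simp only [map_mul, map_sub, eval_rename, eval_X, q2, s2]
  by_cases b : G (y ∘ f.iJ) = 0
  · rw [b, zero_mul]
  obtain ⟨t, -, e⟩ := c.orb y hy ⟨f.map y hy, b⟩
  rw [congrFun e j, congrFun e j', scl, scl, a]
  ring

end Vale.Agent.P287D.Nc
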