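import Vale.Agent.P287D.Defs
import Vale.Agent.P287Q.Top.BlCoh
import Vale.Agent.P287Q.Us.BLC

/-!
# P287D, the net count: generic points of varieties, towers with their steps (statements)
-/

set_option linter.unusedSectionVars false

noncomputable section

namespace Vale.Agent.P287D.Nc

open Set Function Module MvPolynomial P291Z P269 P287Q P287Q.Zc

section pts

variable {J R K : Type} [Field K] [Algebra ℂ K]

/-- the field generated by the ratios of the coordinates of one block -/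
def fl (π : J → R) (ξ : J → K) : IntermediateField ℂ K :=
  IntermediateField.adjoin ℂ {x | ∃ j j', π j = π j' ∧ x = ξ j / ξ j'}

/-- no block vanishes -/
def Nz (π : J → R) (ξ : J → K) : Prop := ∀ r, ∃ j, π j = r ∧ ξ j ≠ 0

/-- the same point -/
def Sim (π : J → R) (ξ ξ' : J → K) : Prop :=
  ∃ t : R → K, (∀ r, t r ≠ 0) ∧ ∀ j, ξ' j = t (π j) * ξ j

/-- `ζ` is the reduction of the point `ξ` at `P` -/
def Rd (π : J → R) (P : Pl K) (ξ : J → K) (ζ : J → P.κ) : Prop :=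
  Nz π ζ ∧ ∃ ξ', Sim π ξ ξ' ∧ ∀ j, ξ' j ∈ P.ring ∧ ζ j = P.rd (ξ' j)

/-- the centre of `P` on the variety with the generic point `ξ` is a prime divisor -/
def Pr (π : J → R) (ξ : J → K) (P : Pl K) : Prop :=
  ∃ ζ, Rd π P ξ ζ ∧ Algebra.IsAlgebraic (fl π ζ) P.κ

variable {n : ℕ}

/-- `ξ` is a point of `V` with values in `K` -/
structure Pt (V : Var n) (ξ : V.J → K) : Prop where
  nz : Nz V.π ξ
  van : ∀ δ g, WHom (bw V.π) δ g → (∀ y ∈ V.A, eval y g = 0) → aeval ξ g = 0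

/-- `ξ` is a generic point of `V` (over the field it generates) -/
structure Gq (V : Var n) (ξ : V.J → K) : Prop extends Pt V ξ where
  gen : ∀ δ g, WHom (bw V.π) δ g → aeval ξ g = 0 → ∀ y ∈ V.A, eval y g = 0

/-- `K` is the function field of `V` and `ξ` is the generic point -/
structure Gp (V : Var n) (ξ : V.J → K) : Prop extends Gq V ξ where
  top : fl V.π ξ = ⊤

end pts

variable {n m : ℕ}

/-- the exceptional divisor -/
abbrev E {Y : Var (n + 1)} (c : Ctr Y) : Var n :=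
  { J := Y.J ⊕ Fin c.k, R := Option Y.R, π := blP (Fin c.k) Y.π, A := excA Y.A c.C c.g
    pv := by
      have h := c.cut.exc_pv Y.pv c.pv (r := n - c.m) (by have := c.cod; omega)
      rwa [show c.m + (n - c.m) = n by have := c.cod; omega] at h
    conn := by
      rw [show excA Y.A c.C c.g = _ from Set.ext fun _ => c.cut.mem_exc]
      exact blc _ _ _ _ _ _ _ _ _ _ _ Y.pv c.pv (by have := c.cod; omega) c.cut c.cut.sub c.conn }

/-- the inclusion of the exceptional divisor -/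
def eJ {Y : Var (n + 1)} (c : Ctr Y) : P287Q.Ext (E c) c.bl :=
  ⟨id, id, injective_id, injective_id, fun _ => rfl, fun _ h => c.cut.exc_sub h⟩

/-- the projection of the exceptional divisor -/
def eP {Y : Var (n + 1)} (c : Ctr Y) : P287Q.Ext (E c) c.Z :=
  ⟨Sum.inl, some, Sum.inl_injective, Option.some_injective _, fun _ => rfl,
    fun _ h => (c.cut.mem_exc.1 h).2⟩

/-- the map `j_* p^*` -/
def phi {Y : Var (n + 1)} (c : Ctr Y) : H c.Z.X →ₗ[ℂ] H c.bl.X :=
  c.exPhi (r := n - c.m) (by have := c.cod; omega)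

/-- `P` is the place of the exceptional divisor -/
def Pc {Y : Var (n + 1)} (c : Ctr Y) {K : Type} [Field K] [Algebra ℂ K] (η : c.bl.J → K)
    (P : Pl K) : Prop := ∃ ζ, Rd c.bl.π P η ζ ∧ Gp (E c) ζ

/-- towers as data -/
inductive Tw (Y₀ : Var n) : Var n → Type 1
  | refl : Tw Y₀ Y₀
  | step {Y : Var n} (t : Tw Y₀ Y) (c : Ctr Y) : Tw Y₀ c.bl

/-- a blow-up below `W` -/
structure Stp (W : Var n) where
  /-- the stage -/
  Y : Var n
  /-- the centre -/
  c : Ctr Y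
  /-- the projection -/
  f : P287Q.Ext W c.bl

/-- the same blow-up below a higher variety -/
def Stp.up {V W : Var n} (s : Stp W) (g : P287Q.Ext V W) : Stp V := ⟨s.Y, s.c, g.comp s.f⟩

namespace Tw

variable {Y₀ : Var n}

/-- the projection to the base -/
def dn : ∀ {W}, Tw Y₀ W → P287Q.Ext W Y₀
  | _, refl => .refl _
  | _, step t c => c.down.comp t.dn

/-- the steps -/
def St : ∀ {W}, Tw Y₀ W → Type
  | _, refl => Empty
  | _, step t _ => Option t.St

/-- the blow-up of a step -/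
def st : ∀ {W} (t : Tw Y₀ W), t.St → Stp W
  | _, refl => Empty.elim
  | _, step t c => fun o : Option t.St => o.elim ⟨_, c, .refl _⟩ fun s => (t.st s).up c.down

theorem fin : ∀ {W} (t : Tw Y₀ W), Finite t.St
  | _, refl => inferInstanceAs (Finite Empty)
  | _, step t _ => haveI := t.fin; inferInstanceAs (Finite (Option t.St))

theorem of_tow {W} (h : Tow Y₀ W) : Nonempty (Tw Y₀ W) := by
  induction h with
  | refl => exact ⟨refl⟩
  | step _ c ih => exact ih.map fun t => t.step c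

theorem tow : ∀ {W}, Tw Y₀ W → Tow Y₀ W
  | _, refl => .refl
  | _, step t c => t.tow.step c

end Tw

/-- the intersection form -/
abbrev frm (V : Var n) : LinearMap.BilinForm ℂ (H V.X) := (LinearMap.mul ℂ (H V.X)).compr₂ V.int

/-- the transcendental lattice has rank `21` and discriminant `± d` -/
def TD (d : ℕ) {M : Type} [AddCommGroup M] [Module ℂ M] (J : LinearMap.BilinForm ℂ M)
    (L : Submodule ℤ M) (σ : M) : Prop :=
  ∃ (b : Basis (Fin 21) ℤ (trn J L σ)) (G : Matrix (Fin 21) (Fin 21) ℤ),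
    (∀ i j, (G i j : ℂ) = J (b i).1 (b j).1) ∧ G.det.natAbs = d

/-- a surface with `p_g = 1` whose transcendental lattice has rank `21` and discriminant `± d` -/
def KT (d : ℕ) (Z : Var m) : Prop :=
  m = 2 ∧ ∃ w, w ≠ 0 ∧ Z.Hg 2 0 = ℂ ∙ w ∧ TD d (frm Z) (Lk Z.X 2) w

/-- **the class**: function fields of these surfaces -/
def SK (d : ℕ) : Cls := fun L _ _ => ∃ (m : ℕ) (Z : Var m) (ξ : Z.J → L), Gp Z ξ ∧ KT d Z

/-! ### rows: algebra of generic points -/

/-- generic points exist -/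
def GP0 : Prop := ∀ (n : ℕ) (V : Var n), ∃ (K : Type) (_ : Field K) (_ : Algebra ℂ K)
  (ξ : V.J → K), Gp V ξ

/-- the dimension -/
def DIM : Prop := ∀ (n : ℕ) (V : Var n) (K : Type) [Field K] [Algebra ℂ K] (ξ : V.J → K),
  (Gp V ξ → FF K n) ∧ (Pt V ξ → Algebra.trdeg ℂ (fl V.π ξ) ≤ n ∧
    (Algebra.trdeg ℂ (fl V.π ξ) = n → Gq V ξ))

/-- projections of points -/
def PTX : Prop := ∀ (n m : ℕ) (V : Var n) (W : Var m) (f : P287Q.Ext V W) (K : Type) [Field K]
  [Algebra ℂ K] (ξ : V.J → K), Pt V ξ → Pt W (ξ ∘ f.iJ)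

/-- generic points descend along birational projections -/
def GPD : Prop := ∀ (n : ℕ) (V W : Var n) (f : P287Q.Ext V W) (K : Type) [Field K]
  [Algebra ℂ K] (ξ : V.J → K), Gp V ξ → f.Bir → Gp W (ξ ∘ f.iJ)

/-- the old blocks have no new fields -/
def Full {V : Var n} {W : Var m} (f : P287Q.Ext V W) : Prop :=
  ∀ j, V.π j ∈ range f.iR → j ∈ range f.iJ

/-- birational projections from generic points -/
def GPB : Prop := ∀ (n : ℕ) (V W : Var n) (f : P287Q.Ext V W) (K : Type) [Field K]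
  [Algebra ℂ K] (ξ : V.J → K), Gp V ξ → Full f → Gp W (ξ ∘ f.iJ) → f.Bir

/-- projections which agree at the generic point agree -/
def EQU : Prop := ∀ (n m : ℕ) (V : Var n) (W : Var m) (f g : P287Q.Ext V W) (K : Type) [Field K]
  [Algebra ℂ K] (ξ : V.J → K), Gq V ξ → Sim W.π (ξ ∘ f.iJ) (ξ ∘ g.iJ) → f.q = g.q

/-- the output of the resolution of the rational map `V ⇢ Y` given by the point `ζ` -/
structure Rsl (V : Var n) (Y : Var m) {K : Type} [Field K] [Algebra ℂ K] (ξ : V.J → K)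
    (ζ : Y.J → K) where
  /-- the top of the tower -/
  U : Var n
  /-- the tower -/
  t : Tw V U
  /-- the graph -/
  Γ : Var n
  /-- the first projection -/
  q : P287Q.Ext Γ U
  /-- the second projection -/
  p : P287Q.Ext Γ Y
  /-- the generic point -/
  η : Γ.J → K
  gp : Gp Γ η
  bir : q.Bir
  bij : Bijective q.q
  full : Full p
  sq : Sim V.π ξ (η ∘ (q.comp t.dn).iJ)
  sp : Sim Y.π ζ (η ∘ p.iJ)

/-- **resolution of rational maps** -/
def MAP : Prop := ∀ (n m : ℕ) (V : Var n) (Y : Var m) (K : Type) [Field K] [Algebra ℂ K]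
  (ξ : V.J → K) (ζ : Y.J → K), Gp V ξ → Pt Y ζ → Nonempty (Rsl V Y ξ ζ)

/-- the same over projective space -/
def MAPP : Prop := ∀ (n m : ℕ) (Y : Var m) (K : Type) [Field K] [Algebra ℂ K]
  (ξ : (Pn n).J → K) (ζ : Y.J → K), Gp (Pn n) ξ → Pt Y ζ → ∃ r : Rsl (Pn n) Y ξ ζ, r.q.Iso

/-! ### rows: places -/

/-- a bijective projection contracts no divisor -/
def BIJ : Prop := ∀ (n : ℕ) (V W : Var n) (f : P287Q.Ext V W) (K : Type) [Field K]
  [Algebra ℂ K] (ξ : V.J → K) (P : Pl K), Gp V ξ → Bijective f.q → Pr V.π ξ P →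
  Pr W.π (ξ ∘ f.iJ) P

/-- the place of the exceptional divisor exists -/
def PLA : Prop := ∀ (n : ℕ) (Y : Var (n + 1)) (c : Ctr Y) (K : Type) [Field K] [Algebra ℂ K]
  (η : c.bl.J → K), Gp c.bl η → ∃ P, Pc c η P

/-- it is the only divisor of the blow-up which is contracted -/
def PLB : Prop := ∀ (n : ℕ) (Y : Var (n + 1)) (c : Ctr Y) (K : Type) [Field K] [Algebra ℂ K]
  (η : c.bl.J → K) (P : Pl K), Gp c.bl η → Pc c η P → Pr c.bl.π η P ∧
    ¬ Pr Y.π (η ∘ Sum.inl) P ∧ ∀ Q, Pr c.bl.π η Q → ¬ Pr Y.π (η ∘ Sum.inl) Q → Q = P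

/-- the exceptional divisor over a centre of codimension two is ruled -/
def RUL : Prop := ∀ (n : ℕ) (Y : Var (n + 1)) (c : Ctr Y) (K : Type) [Field K] [Algebra ℂ K]
  (ζ : (E c).J → K), c.m + 1 = n → Gp (E c) ζ → Ruled (fl Y.π (ζ ∘ Sum.inl))

/-- the exceptional divisor over a surface of the class is of type S -/
def TYP : Prop := ∀ (d : ℕ) (Y : Var 4) (c : Ctr Y) (K : Type) [Field K] [Algebra ℂ K]
  (ζ : (E c).J → K), Gp (E c) ζ → KT d c.Z → SDiv (SK d) K

/-- **the type is a property of the divisor** -/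
def INV : Prop := ∀ (d : ℕ) (Y : Var 4) (c : Ctr Y) (K : Type) [Field K] [Algebra ℂ K]
  (ζ : (E c).J → K), Gp (E c) ζ → SDiv (SK d) K → KT d c.Z

/-- maps with a small image kill the classes of high type -/
def RK : Prop := ∀ (n m : ℕ) (V : Var n) (W : Var m) (f : P287Q.Ext V W) (K : Type) [Field K]
  [Algebra ℂ K] (ξ : V.J → K) (p q : ℕ), Gq V ξ → Algebra.trdeg ℂ (fl W.π (ξ ∘ f.iJ)) < p →
  n < p + q → ∀ x ∈ W.Hg p q, f.pb x = 0

/-- **the restriction lemma** -/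
def RES : Prop := ∀ (Y Γ W : Var 4) (c : Ctr Y) (f : P287Q.Ext Γ c.bl) (g : P287Q.Ext Γ W)
  (K : Type) [Field K] [Algebra ℂ K] (η : Γ.J → K) (P : Pl K), Pt Γ η →
  Pc c (η ∘ f.iJ) P → ∀ β ∈ c.Z.Hg 2 0, β ≠ 0 → f.pb (phi c β) ∈ g.im → Pr W.π (η ∘ g.iJ) P

/-- **the pieces** -/
def CORE : Prop := ∀ (d : ℕ) (X P W U Γ : Var 4) (tX : Tw X W) (tP : Tw P U)
  (q : P287Q.Ext Γ U) (g : P287Q.Ext Γ W) (σ : H X.X), P.Ok → P.Hg 3 1 = ⊥ → q.Iso → q.Bir →
  g.Bir → Nonempty (Prs X) → σ ≠ 0 → X.Hg 3 1 = ℂ ∙ σ → TD d (frm X) (Lk X.X 4) σ →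
  ∃ i : Option {s : tX.St // KT d (tX.st s).c.Z} → tP.St, Injective i ∧ ∀ o,
    KT d (tP.st (i o)).c.Z ∧ ∀ β ∈ (tP.st (i o)).c.Z.Hg 2 0,
      (q.comp (tP.st (i o)).f).pb (phi _ β) ∈ g.im

/-- the divisors of type S on the first variety which are contracted on the second -/
def cs (d : ℕ) {J R J' R' K : Type} [Field K] [Algebra ℂ K] (π : J → R) (ξ : J → K) (π' : J' → R')
    (ξ' : J' → K) : Set (Pl K) := {P | Pr π ξ P ∧ ¬ Pr π' ξ' P ∧ SDiv (SK d) P.κ}

/-- **the net count** -/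
def NET : Prop := ∀ (d : ℕ) (X : Var 4) (σ : H X.X) (K : Type) [Field K] [Algebra ℂ K]
  (x : X.J → K) (y : (Pn 4).J → K), Nonempty (Prs X) → σ ≠ 0 → X.Hg 3 1 = ℂ ∙ σ →
  TD d (frm X) (Lk X.X 4) σ → Gp X x → Gp (Pn 4) y →
  (cs d (Pn 4).π y X.π x).ncard < (cs d X.π x (Pn 4).π y).ncard

open Classical in
/-- prime divisors in the language of b-divisors (one block) -/
def ONB : Prop := ∀ (n : ℕ) (J K : Type) [Fintype J] [Field K] [Algebra ℂ K] (ξ : J → K)
  (P : Pl K), FF K (n + 1) → (∃ j, ξ j ≠ 0) →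
  (On n (mx (Finset.univ.image ξ)) P ↔ Pr (fun _ => ()) ξ P)

end Vale.Agent.P287D.Nc
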