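import Vale.Agent.P287D.Nc.Inv
import Vale.Agent.P287D.Tw.Map
import Vale.Agent.P287D.Br.Gp

/-!
# P287D: the class `KT` is invariant under birational maps of surfaces
-/

namespace Vale.Agent.P287D.Nc

open Set Function Module P291Z P269 P269.Coh P287Q P287Q.Hb P287Q.Zc

/-- Two surfaces under one surface. -/
theorem kt_roof {d : ℕ} {G Z Z₁ : Var 2} {a : P287Q.Ext G Z} {a₁ : P287Q.Ext G Z₁} (ha : a.Bir)
    (ha₁ : a₁.Bir) (u : Up a) (u₁ : Up a₁) (k : KT d Z₁) : KT d Z := by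
  obtain ⟨-, w₁, w0, w1, w2⟩ := k
  have e := (u 2).trans (u₁ 2).symm
  have m1 : w₁ ∈ Z₁.Hg 2 0 := w1 ▸ Submodule.mem_span_singleton_self _
  obtain ⟨w, m0, ew⟩ := e.ge ⟨w₁, m1, rfl⟩
  replace ew : a.pb w = a₁.pb w₁ := ew
  refine ⟨rfl, w, fun k => w0 (ha₁.pb_inj (by rw [← ew, k, map_zero, map_zero])), ?_, ?_⟩
  · refine le_antisymm (fun x hx => ?_) ((Submodule.span_singleton_le_iff_mem _ _).2 m0)
    obtain ⟨y, y1, y2⟩ := e.le ⟨x, hx, rfl⟩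
    obtain ⟨t, rfl⟩ := Submodule.mem_span_singleton.1 (w1.le y1)
    refine Submodule.mem_span_singleton.2 ⟨t, ha.pb_inj ?_⟩
    rw [map_smul, ew, ← map_smul]
    exact y2
  refine w2.of_corr (uni2_h4 Z) (uni2_h4 Z₁) (Z.Hg_deg m0) (Z₁.Hg_deg m1)
    (((LinearMap.mul ℂ _).compl₁₂ a.pb.toLinearMap a₁.pb.toLinearMap).compr₂ G.int)
    (fun x hx y hy => (pz_qm G.qm).int _
      ((Lam _).mul_mem (Lam.map a.q hx.1) (Lam.map a₁.q hy.1))) (ε := 1) (.inl rfl)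
    (fun y _ => ?_) fun x _ => ?_
  · change G.int (a.pb w * a₁.pb y) = _
    rw [ew, ← map_mul, ha₁.int_pb, Int.cast_one, one_mul]
    rfl
  · change G.int (a.pb x * a₁.pb w₁) = _
    rw [← ew, ← map_mul, ha.int_pb]
    exact J_comm (Y := Z.ps) (k := 1) (Z.Hg_deg (p := 2) (q := 0) m0) x

variable {L : Type} [Field L] [Algebra ℂ L] {d : ℕ} {Z Γ : Var 2}

/-- **Surfaces with the same function field.** -/
theorem kt_bir (hB : GPB) {ζ : Z.J → L} {ξ : Γ.J → L} (h : Gp Z ζ) (k : Gp Γ ξ) (t : KT d Z) :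
    KT d Γ :=
  let ⟨_, _, _, a1, b1, a2, b2⟩ := exists_roof' Tw.map hB k h
  kt_roof a1 b1 a2 b2 t

/-- The same for models. -/
theorem kt_vm (hB : GPB) (a : Br.Vm Z L) (b : Br.Vm Γ L) (t : KT d Z) : KT d Γ :=
  let ⟨_, h⟩ := a.exists_at
  let ⟨_, k⟩ := b.exists_at
  kt_bir hB h.gp k.gp t

/-- Every model of a field of the class is a surface of the class. -/
theorem SK.kt (hB : GPB) (s : SK d L) (b : Br.Vm Γ L) : KT d Γ := by
  obtain ⟨m, Z, ζ, h, t⟩ := s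
  obtain rfl := t.1
  obtain ⟨_, k⟩ := b.exists_at
  exact kt_bir hB h k.gp t

/-- A field of the class has a model. -/
theorem SK.vm (s : SK d L) : ∃ (Z : Var 2) (_ : Br.Vm Z L), KT d Z := by
  obtain ⟨m, Z, ζ, h, t⟩ := s
  obtain rfl := t.1
  obtain ⟨a, -⟩ := Br.vm h
  exact ⟨Z, a, t⟩

/-- The holomorphic forms do not depend on the model. -/
theorem hg_vm {n : ℕ} {V W : Var n} (hB : GPB) (a : Br.Vm V L) (b : Br.Vm W L) (p : ℕ) :
    finrank ℂ (V.Hg p 0) = finrank ℂ (W.Hg p 0) :=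
  let ⟨_, h⟩ := a.exists_at
  let ⟨_, k⟩ := b.exists_at
  (finrank_le Tw.map hB k.gp h.gp p).antisymm (finrank_le Tw.map hB h.gp k.gp p)

end Vale.Agent.P287D.Nc
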