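import Mathlib

/-!
# The discriminant of the orthogonal complement in a unimodular lattice
-/

namespace Vale.Agent.P287D.Nc

open Set Function Module Matrix

theorem disc_perp {Λ ι κ : Type} [AddCommGroup Λ] [Fintype ι] [Fintype κ] [DecidableEq ι]
    [DecidableEq κ] (B : LinearMap.BilinForm ℤ Λ) (hs : ∀ x y, B x y = B y x) (hb : Bijective B)
    (e : Basis (ι ⊕ κ) ℤ Λ) (T : Submodule ℤ Λ) (hT : ∀ x, x ∈ T ↔ ∀ i, B (e (.inl i)) x = 0) :
    ∃ b : Basis κ ℤ T, (of fun i j => B (b i) (b j)).det.natAbs =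
      (of fun i j => B (e (.inl i)) (e (.inl j))).det.natAbs := by
  let φ := LinearEquiv.ofBijective B hb
  let f := e.dualBasis.map φ.symm
  have h1 : ∀ i x, B (f i) x = e.repr x i := fun i x => by
    change φ (φ.symm (e.dualBasis i)) x = _
    rw [φ.apply_symm_apply, Basis.dualBasis_apply]
  have h2 : ∀ x i, f.repr x i = B (e i) x := fun x i => by
    rw [hs]
    exact e.dualBasis_repr (φ x) i
  have h3 : ∀ k, f (.inr k) ∈ T := fun k => (hT _).2 fun i => by rw [hs, h1]; simp
  have li : LinearIndependent ℤ fun k => (⟨_, h3 k⟩ : T) :=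
    .of_comp T.subtype (f.linearIndependent.comp _ Sum.inr_injective)
  refine ⟨.mk li fun x _ => ?_, ?_⟩
  · have : x = ∑ k, f.repr x (.inr k) • (⟨_, h3 k⟩ : T) := Subtype.ext (by
      have := f.sum_repr x
      rw [Fintype.sum_sum_type, Finset.sum_eq_zero fun i _ => by rw [h2, (hT _).1 x.2, zero_smul],
        zero_add] at this
      simpa using this.symm)
    rw [this]
    exact Submodule.sum_mem _ fun k _ => Submodule.smul_mem _ _ (Submodule.subset_span ⟨k, rfl⟩)
  let M := of fun i j => B (e i) (e j)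
  let N := of fun i j => B (f i) (f j)
  have h4 : M * N = 1 := by
    ext i k
    have := congrArg (B (e i)) (e.sum_repr (f k))
    rw [map_sum, ← h2 (f k), f.repr_self, Finsupp.single_apply] at this
    rw [mul_apply, one_apply, if_congr eq_comm rfl rfl, ← this]
    exact Finset.sum_congr rfl fun j _ => by rw [map_smul, ← h1, smul_eq_mul, mul_comm]; rfl
  have h5 : M.det.natAbs = 1 := Int.isUnit_iff_natAbs_eq.1 (isUnit_det_of_right_inverse h4)
  have h6 : M * fromBlocks 1 N.toBlocks₁₂ 0 N.toBlocks₂₂ =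
      fromBlocks M.toBlocks₁₁ 0 M.toBlocks₂₁ 1 := by
    rw [← M.fromBlocks_toBlocks, ← N.fromBlocks_toBlocks, fromBlocks_multiply, ← fromBlocks_one,
      fromBlocks_inj] at h4
    conv_lhs => rw [← M.fromBlocks_toBlocks]
    rw [fromBlocks_multiply, h4.2.1, h4.2.2.2]
    simp
  have h7 := congrArg (fun A => (det A).natAbs) h6
  simp only [det_mul, Int.natAbs_mul, h5, det_fromBlocks_zero₂₁, det_fromBlocks_zero₁₂, det_one,
    one_mul, mul_one] at h7
  simp only [Basis.mk_apply]
  exact h7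

theorem exists_ext {Λ ι : Type} [AddCommGroup Λ] [Module.Free ℤ Λ] [Module.Finite ℤ Λ] [Fintype ι]
    {a : ι → Λ} (li : LinearIndependent ℤ a)
    (sat : ∀ (k : ℤ) x, k ≠ 0 → k • x ∈ Submodule.span ℤ (range a) → x ∈ Submodule.span ℤ (range a))
    {m : ℕ} (rk : finrank ℤ Λ = Fintype.card ι + m) :
    ∃ e : Basis (ι ⊕ Fin m) ℤ Λ, ∀ i, e (.inl i) = a i := by
  have : Module.IsTorsionFree ℤ (Λ ⧸ Submodule.span ℤ (range a)) :=
    .of_smul_eq_zero fun k x h => by
      obtain ⟨x, rfl⟩ := Submodule.Quotient.mk_surjective _ x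
      rw [← Submodule.Quotient.mk_smul, Submodule.Quotient.mk_eq_zero] at h
      exact or_iff_not_imp_left.2 fun z => (Submodule.Quotient.mk_eq_zero _).2 (sat k x z h)
  have e := (Basis.span li).sumQuot (finBasis ℤ _)
  have k := finrank_eq_card_basis e
  rw [rk, Fintype.card_sum, Fintype.card_fin, add_right_inj] at k
  exact ⟨(Basis.span li).sumQuot (finBasisOfFinrankEq ℤ _ k.symm), fun i => by
    rw [Basis.sumQuot_inl, Basis.span_apply]⟩

end Vale.Agent.P287D.Nc
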