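import Vale.Agent.P287D.Nc.St
import Vale.Agent.P287D.Nc.Lat
import Vale.Agent.P287D.Ex.Gen

/-!
# P287D, the net count: the transcendental lattice of the cubic
-/

namespace Vale.Agent.P287D.Nc

open Set Function Module P291Z P269 P287Q P287Q.Zc P287Q.Top P287T

theorem td_of {M : Type} [AddCommGroup M] [Module ℂ M] {J : LinearMap.BilinForm ℂ M}
    {L : Submodule ℤ M} [Module.Free ℤ L] [Module.Finite ℤ L] (rk : finrank ℤ L = 23) {σ : M}
    {B : LinearMap.BilinForm ℤ L} (hB : ∀ x y, (B x y : ℂ) = J x.1 y.1) (hs : ∀ x y, B x y = B y x)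
    (hb : Bijective B) {η v : L} (h : ∀ x : L, J σ x = 0 ↔ x ∈ Submodule.span ℤ {η, v}) {d : ℕ}
    (h0 : d ≠ 0) (hd : (d : ℤ) = B η η * B v v - B v η ^ 2) : TD d J L σ := by
  have e : range ![η, v] = {η, v} := Matrix.range_cons_cons_empty _ _ _
  have li : LinearIndependent ℤ ![η, v] := LinearIndependent.pair_iff.2 fun s t k => by
    have a := congrArg (B η) k
    have b := congrArg (B v) k
    simp only [map_add, map_smul, smul_eq_mul, map_zero, hs η v] at a b
    have : (d : ℤ) ≠ 0 := by exact_mod_cast h0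
    exact ⟨(mul_eq_zero.1 (show s * d = 0 by
        rw [hd]; linear_combination B v v * a - B v η * b)).resolve_right this,
      (mul_eq_zero.1 (show t * d = 0 by
        rw [hd]; linear_combination B η η * b - B v η * a)).resolve_right this⟩
  obtain ⟨b, k⟩ := exists_ext li (fun k x a b => by
    rw [e, ← h] at b ⊢
    rw [Submodule.coe_smul, map_zsmul, zsmul_eq_mul] at b
    exact (mul_eq_zero.1 b).resolve_left (by exact_mod_cast a)) (m := 21) (by simpa using rk)
  obtain ⟨c, hc⟩ := disc_perp B hs hb b ((trn J L σ).comap L.subtype) fun x => by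
    simp only [k, Submodule.mem_comap, trn, Submodule.mem_inf, Submodule.mem_iInf]
    refine ⟨fun a i => ?_, fun a => ⟨x.2, fun y hy => ?_⟩⟩
    · have := a.2 _ ⟨(![η, v] i).2, (h _).2 (Submodule.subset_span (e ▸ mem_range_self i))⟩
      exact_mod_cast (hB _ _).trans this
    · have : Submodule.span ℤ (range ![η, v]) ≤ LinearMap.ker (B.flip x) :=
        Submodule.span_le.2 (range_subset_iff.2 a)
      exact (hB ⟨y, hy.1⟩ x).symm.trans (Int.cast_eq_zero.2 (this (e ▸ (h _).1 hy.2)))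
  refine ⟨c.map (Submodule.comapSubtypeEquivOfLe inf_le_left), _, fun i j => hB _ _, hc.trans ?_⟩
  simp only [k, Matrix.det_fin_two, Matrix.of_apply, Matrix.cons_val_zero, Matrix.cons_val_one,
    hs η v, ← sq, ← hd, Int.natAbs_natCast]

/-- **The transcendental lattice of the cubic.** -/
theorem tx {F : MvPolynomial (Fin 6) ℂ} (h : Per.Sm F) {d : ℕ} (hd : d ≠ 0) (g : Ex.Gen F d)
    (hp : PV (Cub.π₀ (Fin 6)) (Pub.cone F) 4) (c : IsConnected _) {σ : H (one hp c).X} (h0 : σ ≠ 0)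
    (hσ : (one hp c).Hg 3 1 = ℂ ∙ σ) : TD d (frm (one hp c)) (Lk (one hp c).X 4) σ := by
  obtain ⟨B, η, v, hB, hs, -, h3, k1, k2, e, k⟩ := g
  have C := h.cubH
  have z := C.pz.lat 4
  have := z.free
  have := z.fin
  rw [Var.Hg_eq] at hσ
  have a : ∀ x : Lk (Cub.XF F) 4, x.1 ∈ Per.TT F 2 2 ↔ _ := fun x =>
    hg_22 C.hg C.re C.n C.h40 (hσ.ge (Submodule.mem_span_singleton_self σ)) h0 hσ.le x.2.2
      (cj_of_Lam x.2.1)
  refine td_of (z.rank.trans C.b4) hB hs.eq (C.pz.bij C.n hB) (η := η) (v := v)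
    (fun x => (a x).symm.trans ⟨k x, fun b => ?_⟩) hd (h3.symm ▸ e)
  obtain ⟨s, t, rfl⟩ := Submodule.mem_span_pair.1 b
  exact add_mem (Submodule.smul_of_tower_mem _ s k1) (Submodule.smul_of_tower_mem _ t k2)

end Vale.Agent.P287D.Nc
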