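import Vale.Agent.P287D.Nc.Net
import Vale.Agent.P287D.Nc.Tx
import Vale.Agent.P287D.F1.St
import Vale.Agent.P287D.Top.Glue

/-!
# P287D, the net count: the output
-/

namespace Vale.Agent.P287D.Nc

open Set Function P287Q P287Q.Top

/-- **K3E**: the surfaces of the class are of type S -/
def K3E : Prop := ∃ d₀ : ℕ, ∀ d, d₀ ≤ d → ∀ (L : Type) [Field L] [Algebra ℂ L], SK d L →
  ∃ H f, IsS d L H f

section iso

variable {J R K L : Type} [Field K] [Algebra ℂ K] [Field L] [Algebra ℂ L]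

theorem fl_map (π : J → R) (ξ : J → K) (e : K →ₐ[ℂ] L) : fl π (e ∘ ξ) = (fl π ξ).map e := by
  rw [fl, fl, IntermediateField.adjoin_map]
  congr 1
  ext x
  exact ⟨fun ⟨j, j', a, b⟩ => ⟨_, ⟨j, j', a, rfl⟩, by simp [b]⟩,
    fun ⟨_, ⟨j, j', a, b⟩, c⟩ => ⟨j, j', a, by simp [← c, b]⟩⟩

theorem Gq.map {n : ℕ} {V : Var n} {ξ : V.J → K} (h : Gq V ξ) (e : K →ₐ[ℂ] L) : Gq V (e ∘ ξ) := by
  have k : ∀ g, MvPolynomial.aeval (e ∘ ξ) g = 0 ↔ MvPolynomial.aeval ξ g = 0 := fun g =>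
    (congrArg (· = 0) (MvPolynomial.comp_aeval_apply ξ e g)).to_iff.symm.trans
      (map_eq_zero_iff e e.injective)
  exact ⟨⟨fun r => (h.nz r).imp fun j a => ⟨a.1, (map_ne_zero e).2 a.2⟩,
    fun δ g a b => (k g).2 (h.van δ g a b)⟩, fun δ g a b => h.gen δ g a ((k g).1 b)⟩

theorem Gp.map {n : ℕ} {V : Var n} {ξ : V.J → K} (h : Gp V ξ) (e : K ≃ₐ[ℂ] L) : Gp V (e ∘ ξ) :=
  ⟨h.toGq.map (e : K →ₐ[ℂ] L), (fl_map V.π ξ (e : K →ₐ[ℂ] L)).trans (by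
    rw [h.top, ← AlgHom.fieldRange_eq_map]
    exact AlgHom.fieldRange_eq_top.2 e.surjective)⟩

end iso

theorem cnt_eq (hO : ONB) (d : ℕ) {J J' K : Type} [Fintype J] [Fintype J'] [Field K] [Algebra ℂ K]
    (f : FF K 4) {x : J → K} {y : J' → K} (hx : Nz (fun _ => ()) x) (hy : Nz (fun _ => ()) y) :
    cnt (SK d) (F1.lam x) (F1.lam y) = (cs d (fun _ => ()) x (fun _ => ()) y).ncard :=
  congrArg ncard (ext fun P => and_congr (hO 3 J K x P f ((hx ()).imp fun _ a => a.2))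
    (and_congr_left' (hO 3 J' K y P f ((hy ()).imp fun _ a => a.2)).not))

/-- **The output of the block.** -/
theorem cnt_of (h0 : GP0) (hD : DIM) (hG : GPD) (hO : ONB) (hN : NET) (hF : F1.FAN) (hK : K3E) :
    Top.CNT := by
  obtain ⟨d₀, hK⟩ := hK
  refine ⟨d₀, fun F d sm g l b => ?_⟩
  have l' : d₀ < d := by exact_mod_cast l
  obtain ⟨h, c, σ, s0, hσ⟩ := cubV F sm.hom sm.sm
  obtain ⟨h₀, c₀, -⟩ := p4
  obtain ⟨W, t, Γ, q, p, -, hq, hp⟩ := tow F sm.hom sm.sm b h c h₀ c₀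
  have e : one h₀ c₀ = Pn 4 := one_eq_Pn (ext fun _ => mem_Ust_unit.symm) h₀ c₀
  obtain ⟨t⟩ := Tw.of_tow ((congrArg (Tow · W) e).mp t)
  obtain ⟨K, _, _, η, gη⟩ := h0 _ Γ
  have gx := hG _ _ _ p _ _ gη hp
  have gy := hG _ _ _ (q.comp t.dn) _ _ gη (hq.comp t.dn_bir)
  have f := (hD _ _ _ _).1 gη
  refine ⟨SK d, K, _, _, _, _, ⟨fun L L' _ _ _ _ e ⟨m, Z, ξ, a, k⟩ => ⟨m, Z, _, a.map e, k⟩,
    hK d l'.le⟩, f, hF.p4 K _ gy, hF.cub F sm.hom sm.sm h c K _ gx, ?_⟩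
  rw [cnt_eq hO d f gy.nz gx.nz, cnt_eq hO d f gx.nz gy.nz]
  exact (hN d _ σ K _ _ (cubP F sm.hom sm.sm h c) s0 hσ (tx sm (by omega) g h c s0 hσ) gx gy).ne

end Vale.Agent.P287D.Nc
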