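import Vale.Agent.P287D.Nc.Pa0

/-!
# P287D: the row BIJ
-/

namespace Vale.Agent.P287D.Nc

open Set Function MvPolynomial P287Q TensorProduct

namespace Pa

theorem alg_of_nil {F L M : Type} [Field F] [Field L] [Field M] [Algebra F L] [Algebra F M] {a : L}
    {b : M} (h : IsNilpotent (b ⊗ₜ[F] (1 : L) - (1 : M) ⊗ₜ[F] a)) : IsAlgebraic F a := by
  by_contra k
  let φ := Algebra.TensorProduct.map (AlgHom.id M M) (Polynomial.aeval (R := F) a)
  have i : Injective φ := Module.Flat.lTensor_preserves_injective_linearMap (M := M)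
    (Polynomial.aeval (R := F) a).toLinearMap (transcendental_iff_injective.1 k)
  have e : IsNilpotent (b ⊗ₜ[F] (1 : Polynomial F) - (1 : M) ⊗ₜ[F] Polynomial.X) :=
    (IsNilpotent.map_iff i).1 (by simpa [φ] using h)
  have := congrArg (Polynomial.coeff · 1) (e.map (polyEquivTensor F M).symm).eq_zero
  simp [Polynomial.coeff_one] at this

variable {n m : ℕ} {V : Var n} {W : Var m} {L T : Type} [Field L] [Algebra ℂ L] [CommRing T]
  [Algebra ℂ T] {ζ : V.J → L} {s : Sel V.π}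

theorem clo (h : Pt V ζ) (hs : ∀ r, ζ (s.1 r) = 1) {σ : Type} {x : σ → T} {y : σ → ℂ}
    (hy : ∀ q : MvPolynomial σ ℂ, aeval x q = 0 → eval y q = 0) (i : V.J → σ) (φ : L →ₐ[ℂ] T)
    (a : x ∘ i = φ ∘ ζ) : (∀ r, y (i (s.1 r)) = 1) ∧ y ∘ i ∈ V.A := by
  have b : ∀ q : MvPolynomial V.J ℂ, aeval ζ q = 0 → eval (y ∘ i) q = 0 := fun q c => by
    rw [← eval_rename]
    exact hy _ (by rw [aeval_rename, a, comp_def, ← comp_aeval_apply, c, map_zero])
  have c : ∀ r, y (i (s.1 r)) = 1 := fun r => by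
    have := b (X (s.1 r) - 1) (by simp [hs])
    simpa [sub_eq_zero] using this
  exact ⟨c, mem_of h (fun r => ⟨_, s.2 r, (c r).trans_ne one_ne_zero⟩) b⟩

theorem inj (f : P287Q.Ext V W) (hf : Injective f.q) (h : Pt V ζ) (h' : Nz W.π (ζ ∘ f.iJ))
    (hs : ∀ r, ζ (s.1 r) = 1) (l r : L →ₐ[ℂ] T) (e : ∀ a ∈ fl W.π (ζ ∘ f.iJ), l a = r a)
    (j : V.J) : IsNilpotent (l (ζ j) - r (ζ j)) := by
  have := nss (x := Sum.elim (l ∘ ζ) (r ∘ ζ)) (p := X (.inl j) - X (.inr j)) fun y hy => ?_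
  · simpa using this
  obtain ⟨a1, a2⟩ := clo h hs hy .inl l rfl
  obtain ⟨b1, b2⟩ := clo h hs hy .inr r rfl
  obtain ⟨t, t0, c⟩ := sim_of (W.pv.sub (f.map _ a2)) (W.pv.sub (f.map _ b2)) fun u v d => by
    obtain ⟨w, w1, w2⟩ := h' (W.π v)
    have d1 := e _ (div_mem_fl _ (d.trans w1.symm))
    have d2 := e _ (div_mem_fl _ w1.symm)
    have := hy (X (.inl (f.iJ u)) * X (.inr (f.iJ v)) -
      X (.inl (f.iJ v)) * X (.inr (f.iJ u))) (by
        simp only [map_sub, map_mul, aeval_X, Sum.elim_inl, Sum.elim_inr, comp_apply] at d1 d2 w2 ⊢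
        rw [← div_mul_cancel₀ (ζ (f.iJ u)) w2, ← div_mul_cancel₀ (ζ (f.iJ v)) w2]
        simp only [map_mul, d1, d2]
        ring)
    simpa [sub_eq_zero] using this
  obtain ⟨u, -, d⟩ := V.pt_eq.1 (hf (a₁ := V.pt ⟨_, a2⟩) (a₂ := V.pt ⟨_, b2⟩)
    (W.pt_eq.2 ⟨t, unit_iff.2 t0, funext c⟩))
  have d1 := congrFun d (s.1 (V.π j))
  have d2 := congrFun d j
  simp only [scl, comp_apply, a1, b1, s.2, mul_one] at d1 d2
  simp [d2, ← d1]

end Pa

open Pa in
/-- **BIJ** -/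
theorem bij_of (hX : PTX) : BIJ := by
  rintro n V W f K _ _ ξ P h hb ⟨ζ, h1, h2⟩
  obtain ⟨s, hs⟩ := sel h1.1
  have h3 := rd_nrm' h1 s hs
  have h4 := h3.comp hX f h.toPt
  refine ⟨_, h4, ?_⟩
  let F := fl W.π (nrm s ζ ∘ f.iJ)
  have k : ∀ j, nrm s ζ j ∈ algebraicClosure F P.κ := fun j => by
    have := inj f hb.1 (h3.pt h.toPt) h4.1 (nrm_one s hs) (T := P.κ ⊗[F] P.κ)
      Algebra.TensorProduct.includeLeft ((Algebra.TensorProduct.includeRight).restrictScalars ℂ)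
      (fun a ha => by
        simpa [Algebra.smul_def] using smul_tmul (⟨a, ha⟩ : F) (1 : P.κ) (1 : P.κ)) j
    exact mem_algebraicClosure_iff.2 (alg_of_nil this)
  have : Algebra.IsAlgebraic (algebraicClosure F P.κ) P.κ :=
    alg_mono (L' := (algebraicClosure F P.κ).restrictScalars ℂ)
      (IntermediateField.adjoin_le_iff.2 (by
        rintro _ ⟨j, j', -, rfl⟩
        exact div_mem (k j) (k j'))) (h3.pr.1 ⟨ζ, h1, h2⟩)
  exact .trans F (algebraicClosure F P.κ) P.κ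

end Vale.Agent.P287D.Nc
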