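import Vale.Agent.P287D.Nc.Gpd

/-!
# P287D: the row GPB
-/

namespace Vale.Agent.P287D.Nc

open Set Function MvPolynomial P287Q

namespace Gb

variable {K : Type} [Field K] [Algebra ℂ K]

/-- Elements of the function field are quotients of forms of one degree with one denominator. -/
theorem fam {J R ι : Type} [Fintype J] [Fintype R] [DecidableEq R] [Fintype ι] {π : J → R}
    {η : J → K} (s : Sel π) (h1 : ∀ r, η (s.1 r) = 1) (h : fl π η = ⊤) (u : ι → K) :
    ∃ (δ : R → ℤ) (g : ι → MvPolynomial J ℂ) (c : K), (∀ r, 0 ≤ δ r) ∧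
      (∀ i, WHom (bw π) δ (g i)) ∧ c ≠ 0 ∧ ∀ i, aeval η (g i) = c * u i := by
  classical
  have k : ∀ i, ∃ p q : MvPolynomial J ℂ, aeval η q ≠ 0 ∧ aeval η p = aeval η q * u i := fun i => by
    obtain ⟨p, q, e⟩ := Pa.frac h (u i)
    by_cases a : aeval η q = 0
    · exact ⟨0, 1, by simp, by simp [e, a]⟩
    · exact ⟨p, q, a, by rw [e, mul_div_cancel₀ _ a]⟩
  choose p q a b using k
  choose N g c d using fun i => exists_hom id (fun j => s.1 (π j)) (fun j => (s.2 _).symm)
    (p i * ∏ k ∈ Finset.univ.erase i, q k)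
  have hD := IsWeightedHomogeneous.prod Finset.univ (fun j => (X (s.1 (π j)) : MvPolynomial J ℂ)) _
    fun j _ => isWeightedHomogeneous_X ℂ (bw π) (s.1 (π j))
  refine ⟨(∑ i, N i) • ∑ j, bw π (s.1 (π j)), fun i => g i * (∏ j, X (s.1 (π j))) ^ (∑ i, N i - N i),
    ∏ k, aeval η (q k), fun r => nsmul_nonneg (by
      rw [Finset.sum_apply]
      exact Finset.sum_nonneg fun j _ => by simp only [bw, Pi.single_apply]; positivity) _,
    fun i => ?_, Finset.prod_ne_zero_iff.2 fun k _ => a k, fun i => ?_⟩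
  · have := (c i).mul (whom_iff.2 (hD.pow (∑ i, N i - N i)))
    rwa [← add_nsmul, Nat.add_sub_cancel' (Finset.single_le_sum (fun _ _ => Nat.zero_le _)
      (Finset.mem_univ i))] at this
  · rw [map_mul, d i K η (by simp [h1]), ← Finset.mul_prod_erase _ _ (Finset.mem_univ i)]
    simp [h1, b, mul_right_comm]

end Gb

open Sp in
/-- **GPB** -/
theorem gpb' : GPB := fun n V W f K _ _ ξ₀ h₀ hf k₀ => by
  classical
  obtain ⟨ξ, σ, e, h3⟩ := up f k₀.nz
  have h := e.gp h₀
  have k := (e.comp f).gp k₀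
  obtain ⟨s, a⟩ := Pa.sel h.nz
  obtain ⟨δ, g, c, g0, g1, c0, g2⟩ := Gb.fam σ h3 k.top fun j => ξ j / ξ (s.1 (V.π j))
  let S : V.J → MvPolynomial W.J ℂ := extend f.iJ X g
  let d : V.R → W.R → ℤ := extend f.iR (fun r => Pi.single r 1) fun _ => δ
  have S1 : ∀ j, S (f.iJ j) = X j := fun j => f.injJ.extend_apply _ _ j
  have d0 : ∀ r r', 0 ≤ d r r' := fun r r' => by
    by_cases b : ∃ a, f.iR a = r
    · obtain ⟨r, rfl⟩ := b
      simp only [d, f.injR.extend_apply, Pi.single_apply]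
      positivity
    · simp only [d, extend_apply' _ _ _ b, g0]
  have hS : ∀ j, WHom (bw W.π) (d (V.π j)) (S j) := fun j => by
    by_cases b : ∃ a, f.iJ a = j
    · obtain ⟨j, rfl⟩ := b
      simp only [d, S1, f.blk, f.injR.extend_apply]
      exact whom_X _ _
    · simp only [d, S, extend_apply' _ _ _ b, extend_apply' _ _ _ (mt (hf j) b)]
      exact g1 j
  have e' : Sim V.π ξ fun j => aeval (ξ ∘ f.iJ) (S j) := by
    refine ⟨extend f.iR 1 fun r => c / ξ (s.1 r), fun r => ?_, fun j => ?_⟩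
    · by_cases b : ∃ a, f.iR a = r
      · obtain ⟨r, rfl⟩ := b
        rw [f.injR.extend_apply]
        exact one_ne_zero
      · rw [extend_apply' _ _ _ b]
        exact div_ne_zero c0 (a r)
    by_cases b : ∃ a, f.iJ a = j
    · obtain ⟨j, rfl⟩ := b
      simp [S1, f.blk, f.injR.extend_apply]
    · simp only [S, extend_apply' _ _ _ b, extend_apply' _ _ _ (mt (hf j) b), g2]
      ring
  have h' := e'.gq h.toGq
  have e1 : (fun j => aeval (ξ ∘ f.iJ) (S j)) ∘ f.iJ = ξ ∘ f.iJ := funext fun j => by simp [S1]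
  have hG := whom_iff.2 (IsWeightedHomogeneous.prod Finset.univ (fun r => S (s.1 r)) _
    fun r _ => whom_iff.1 (hS (s.1 r)))
  have hs := fun j => frm_eval (hS j) (d0 _)
  have nz : ∀ x, eval x (∏ r, S (s.1 r)) ≠ 0 → Nz V.π fun j => eval x (S j) := fun x hx r =>
    ⟨s.1 r, s.2 r, Finset.prod_ne_zero_iff.1 (map_prod (MvPolynomial.eval x) _ _ ▸ hx) r (Finset.mem_univ r)⟩
  refine ⟨_, _, fun r r' => (d r r').toNat, fun x j => eval x (S j), frm_eval hG fun r => ?_, hs,
    Sct.of_frm (d := fun r r' => (d r r').toNat) hs (fun x hx => ?_)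
      (fun x _ => funext fun j => by simp [S1]) fun w hw hx => ?_, ?_⟩
  · rw [Finset.sum_apply]
    exact Finset.sum_nonneg fun _ _ => d0 _ _
  · obtain ⟨_, δ', G, u, -⟩ := eqs V
    refine (u.zero _ (nz x hx.2)).2 (funext fun l => ?_)
    have := k.gen _ _ (whom_aeval hS (u.hom l)) ((comp_aeval_apply _ _ _).trans
      (h'.van _ _ (u.hom l) fun z hz => congrFun ((u.zero z (u.sub hz)).1 hz) l)) x hx.1
    rwa [← aeval_eq_eval, comp_aeval_apply] at this
  · obtain ⟨t, t0, t1⟩ := Pa.sim_of (nz _ hx.2) (V.pv.sub hw) fun j j' b => by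
      have c1 := (whom_rename f.blk (hS j)).mul (whom_X V.π j')
      have c2 := (whom_rename f.blk (hS j')).mul (whom_X V.π j)
      rw [b] at c1
      rw [show bw V.π j = bw V.π j' by simp only [bw, b]] at c2
      have := h'.gen _ _ (whom_iff.2 ((whom_iff.1 c1).sub (whom_iff.1 c2))) (by
        simp only [map_sub, map_mul, aeval_rename, e1, aeval_X]
        ring) w hw
      simpa only [map_sub, map_mul, eval_rename, eval_X, sub_eq_zero] using this
    exact ⟨t, unit_iff.2 t0, funext t1⟩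
  · by_contra! b
    obtain ⟨t, t0, t1⟩ := e'
    have := k.van _ _ hG b
    rw [map_prod, Finset.prod_eq_zero_iff] at this
    obtain ⟨r, -, m⟩ := this
    exact mul_ne_zero (t0 _) (a r) ((t1 _).symm.trans m)

end Vale.Agent.P287D.Nc
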