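import Vale.Agent.P287D.Nc.RkR
import Vale.Agent.P287D.Nc.Bas
import Vale.Agent.P287Q.Us.Bir

/-!
# P287D: the rows EQU and RES
-/

namespace Vale.Agent.P287D.Nc

open Set Function MvPolynomial P291Z P269 P269.Coh P287Q P287Q.Hb

variable {n m : ℕ}

/-- **EQU** -/
theorem equ : EQU := fun n m V W f g K _ _ ξ h ⟨t, _, e⟩ => by
  refine ContinuousMap.ext (V.pt_surj.forall.2 fun y => W.pt_eq.2 ?_)
  have k : ∀ j j', W.π j = W.π j' →
      y.1 (f.iJ j) * y.1 (g.iJ j') = y.1 (f.iJ j') * y.1 (g.iJ j) := fun j j' a => by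
    have b : ∀ p : P287Q.Ext V W, bw V.π (p.iJ j') = bw V.π (p.iJ j) := fun p => by
      simp only [bw, p.blk, a]
    have c' := (whom_X V.π (f.iJ j')).mul (whom_X V.π (g.iJ j))
    rw [b f, ← b g] at c'
    have c := (whom_iff.1 ((whom_X V.π (f.iJ j)).mul (whom_X V.π (g.iJ j')))).sub (whom_iff.1 c')
    have d := h.gen _ _ (whom_iff.2 c) (by
      simp only [map_sub, map_mul, aeval_X]
      rw [show ξ (g.iJ j) = _ from e j, show ξ (g.iJ j') = _ from e j', a, comp_apply, comp_apply]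
      ring) y y.2
    simpa [sub_eq_zero] using d
  choose s s1 s2 using W.pv.sub (f.map _ y.2)
  have s3 : ∀ j, y.1 (g.iJ j) = y.1 (g.iJ (s (W.π j))) / y.1 (f.iJ (s (W.π j))) * y.1 (f.iJ j) :=
    fun j => by
      rw [div_mul_eq_mul_div, eq_div_iff (show y.1 (f.iJ _) ≠ 0 from s2 _), mul_comm,
        k _ _ (s1 _), mul_comm]
  refine ⟨fun r => y.1 (g.iJ (s r)) / y.1 (f.iJ (s r)), unit_iff.2 fun r a => ?_, funext s3⟩
  obtain ⟨j, rfl, b⟩ := W.pv.sub (g.map _ y.2) r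
  exact b ((s3 j).trans (mul_eq_zero_of_left a _))

theorem Tw.bir {Y₀ : Var n} : ∀ {W} (t : Tw Y₀ W), t.dn.Bir
  | _, .refl => Ext.bir_refl _
  | _, .step t c => c.down_bir.comp t.bir

variable {Y : Var (n + 1)} (c : Ctr Y)

theorem hd : c.m + (n - c.m) + 1 = n + 1 := by have := c.cod; omega

theorem eJ_q : (eJ c).q = c.exJ (hd c) :=
  ContinuousMap.ext ((E c).pt_surj.forall.2 fun _ => rfl)

theorem eP_q : (eP c).q = c.exP (hd c) :=
  ContinuousMap.ext ((E c).pt_surj.forall.2 fun _ => rfl)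

theorem eJ_phi_ne {a : H c.Z.X} (ha : a ≠ 0) : (eJ c).pb (phi c a) ≠ 0 := fun e => by
  have hr : 0 < n - c.m := by have := c.cod; omega
  refine ha (c.phi_inj (hd c) hr ((c.blT (hd c)).ext ?_ ?_))
  · rw [map_zero, map_zero]
    exact (c.blT (hd c)).push_exc0 hr a
  · rw [map_zero, map_zero, ← eJ_q]
    exact e

theorem alg_of {K : Type} [Field K] [Algebra ℂ K] (L : IntermediateField ℂ K) {k : ℕ}
    (h : Algebra.trdeg ℂ K ≤ k) (h' : (k : Cardinal) ≤ Algebra.trdeg ℂ L) :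
    Algebra.IsAlgebraic L K := by
  have e := trdeg_add_eq ℂ L (A := K)
  have a : Algebra.trdeg ℂ L = k := le_antisymm ((self_le_add_right _ _).trans (e.le.trans h)) h'
  rw [← e, a] at h
  exact trdeg_eq_zero_iff.1 (nonpos_iff_eq_zero.1
    ((Cardinal.add_nat_le_add_nat_iff k).1 (by simpa [add_comm] using h)))

theorem trdeg_top {K : Type} [Field K] [Algebra ℂ K] {L : IntermediateField ℂ K} (h : L = ⊤) :
    Algebra.trdeg ℂ K = Algebra.trdeg ℂ L := by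
  subst h
  exact (IntermediateField.topEquiv.trdeg_eq).symm

/-- **RES** -/
theorem res_of (hM : MAP) (hX : PTX) (hD : DIM) : RES := by
  rintro Y Γ W c f g K _ _ η P hη ⟨ζ, h1, h2⟩ β - h0 ⟨w, hw, e⟩
  obtain ⟨θ, h3⟩ := Rd.ex hη.nz P
  obtain ⟨r⟩ := hM 3 4 (E c) Γ _ ζ θ h2 (h3.pt hη)
  have h4 : (r.p.comp f).q = ((r.q.comp r.t.dn).comp (eJ c)).q :=
    equ _ _ _ _ _ _ _ _ r.gp.toGq
      ((r.sp.comp f).symm.trans (((h3.comp hX f hη).uniq h1).trans r.sq))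
  refine ⟨_, h3.comp hX g hη, alg_of _ (k := 3)
    ((trdeg_top h2.top).le.trans ((hD _ _ _ _).2 h2.toPt).1) (not_lt.1 fun k => ?_)⟩
  rw [(r.sp.comp g).fl] at k
  have h5 := rk _ _ _ _ (r.p.comp g) _ _ 3 1 r.gp.toGq k (by omega) w hw
  rw [Ext.pb_comp, show g.pb w = _ from e, ← Ext.pb_comp, Ext.pb_eq, h4, ← Ext.pb_eq,
    Ext.pb_comp] at h5
  exact eJ_phi_ne c h0 ((r.bir.comp r.t.bir).pb_inj (h5.trans (map_zero _).symm))

end Vale.Agent.P287D.Nc
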