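import Vale.Agent.P287D.Nc.Inv1
import Vale.Agent.P287D.Nc.Res

/-!
# P287D: birational invariance of the holomorphic forms, the row INV
-/

namespace Vale.Agent.P287D.Nc

open Set Function Module MvPolynomial P291Z P269 P269.Coh P287Q P287Q.Hb P287Q.Zc

variable {n m : ℕ}

/-- the holomorphic forms of `V` come from `W` -/
def Up {V : Var n} {W : Var m} (f : P287Q.Ext V W) : Prop :=
  ∀ p, (W.Hg p 0).map f.pb.toLinearMap = V.Hg p 0

theorem map_comp {l} {U : Var l} {V : Var n} {W : Var m} (g : P287Q.Ext U V) (f : P287Q.Ext V W)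
    (S : Submodule ℂ (H W.X)) :
    S.map (g.comp f).pb.toLinearMap = (S.map f.pb.toLinearMap).map g.pb.toLinearMap := by
  rw [← Submodule.map_comp]
  exact congrArg (Submodule.map · _) (LinearMap.ext fun x => f.pb_comp g x)

theorem Up.comp {l} {U : Var l} {V : Var n} {W : Var m} {g : P287Q.Ext U V} {f : P287Q.Ext V W}
    (hg : Up g) (hf : Up f) : Up (g.comp f) := fun p => by rw [map_comp, hf, hg]

theorem up_bij {V W : Var n} (f : P287Q.Ext V W) (h : Bijective f.q) : Up f := fun p => by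
  rw [V.Hg_eq, W.Hg_eq]
  exact (hgv _ W).map_eq (hgv _ V) (f := f.q) (fun _ _ _ => f.map_T)
    (V.qm.bij_map W.qm f.hol h).2 _ _

theorem up_down {V : Var n} (c : Ctr V) : Up c.down := fun p => by
  obtain ⟨r, hd⟩ : ∃ r, c.m + r + 1 = n := ⟨n - c.m - 1, by have := c.cod; omega⟩
  rw [V.Hg_eq, c.bl.Hg_eq]
  exact ((c.blT hd).eq_map (c.blH hd hgp) (.inr le_rfl)).symm

theorem Tw.up {Y₀ : Var n} : ∀ {W} (t : Tw Y₀ W), Up t.dn
  | _, .refl => up_bij (.refl _) (by rw [Ext.q_refl]; exact bijective_id)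
  | _, .step t c => (up_down c).comp t.up

theorem up_lhb {B : Var n} {Z : Var m} (f : P287Q.Ext B Z) {r : ℕ} {ξ : H B.X}
    (h : LHB Z.ps B.ps r f.q ξ) (hξ : ξ ∈ B.T 1 1) : Up f := fun p => by
  refine le_antisymm (Submodule.map_le_iff_le_comap.2 fun x => f.pb_mem) fun x hx => ?_
  rw [B.Hg_eq] at hx
  obtain ⟨v, h1, rfl⟩ := (h.mem_iff (hgv _ Z) (hgv _ B) (fun _ _ _ => f.map_T) hξ).1 hx
  rw [Fin.sum_univ_succ, Finset.sum_eq_zero fun k _ => by
    rw [(hgv _ Z).eq_zero_out (h1 k.succ) (.inr (.inl (by simp; omega))), map_zero, zero_mul]]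
  exact ⟨v 0, (Z.Hg_eq p 0).ge (by simpa using h1 0), by simp [Ext.pb_eq]⟩

variable {K : Type} [Field K] [Algebra ℂ K]

section bi

variable (hM : MAP) (hB : GPB) {V W : Var n} {ξ : V.J → K} {ζ : W.J → K} (h : Gp V ξ) (k : Gp W ζ)
include hM hB h k

theorem exists_roof : ∃ (G : Var n) (a : P287Q.Ext G V) (b : P287Q.Ext G W),
    a.Bir ∧ b.Bir ∧ Up a :=
  let ⟨r⟩ := hM _ _ V W K ξ ζ h k.toPt
  ⟨r.Γ, r.q.comp r.t.dn, r.p, r.bir.comp r.t.bir, hB _ _ _ _ _ _ r.gp r.full (r.sp.gp k),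
    (up_bij _ r.bij).comp r.t.up⟩

theorem finrank_le (p : ℕ) : finrank ℂ (W.Hg p 0) ≤ finrank ℂ (V.Hg p 0) := by
  obtain ⟨G, a, b, -, h2, h3⟩ := exists_roof hM hB h k
  have := G.fin
  have := V.fin
  rw [(Submodule.equivMapOfInjective b.pb.toLinearMap h2.pb_inj _).finrank_eq]
  exact (Submodule.finrank_mono ((Submodule.map_le_iff_le_comap.2 fun x =>
    b.pb_mem).trans (h3 p).ge)).trans (Submodule.finrank_map_le _ _)

/-- **Birational invariance of the holomorphic forms.** -/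
theorem exists_roof' : ∃ (G : Var n) (a : P287Q.Ext G V) (b : P287Q.Ext G W),
    a.Bir ∧ b.Bir ∧ Up a ∧ Up b := by
  obtain ⟨G, a, b, h1, h2, h3⟩ := exists_roof hM hB h k
  have := G.fin
  have := V.fin
  refine ⟨G, a, b, h1, h2, h3, fun p => Submodule.eq_of_le_of_finrank_le
    (Submodule.map_le_iff_le_comap.2 fun x => b.pb_mem) ?_⟩
  rw [← (Submodule.equivMapOfInjective b.pb.toLinearMap h2.pb_inj _).finrank_eq, ← h3]
  exact (Submodule.finrank_map_le _ _).trans (finrank_le hM hB k h p)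

end bi

theorem Pt.van' {V : Var n} {ξ : V.J → K} (h : Pt V ξ) {g : MvPolynomial V.J ℂ}
    (hg : ∀ y ∈ V.A, eval y g = 0) : aeval ξ g = 0 := by
  obtain ⟨T, h1, h2⟩ := Chow.exists_gen (w := bw V.π) (C := V.A)
    fun t ht y hy => tw_bw V.π t ▸ V.pv.inv t ht y hy
  exact Ideal.span_le (I := RingHom.ker (aeval ξ)).2
    (fun p hp => let ⟨_, a, _, b⟩ := h1 p hp; h.van _ _ b a) (h2 g hg)

theorem subB_top (Z : Var n) : SubB Z.π Z.A (fun _ => (⊤ : Submodule ℂ (Fin 2 → ℂ))) 1 :=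
  ⟨fun _ _ _ _ => rfl, fun _ _ => ⟨fun _ => Pi.basisFun ℂ _, analyticAt_const,
    .of_forall fun _ => ⟨(Pi.basisFun ℂ _).linearIndependent, (Pi.basisFun ℂ _).span_eq.symm⟩⟩⟩

/-- the product with the line -/
abbrev lnV (Z : Var n) : Var (n + 1) :=
  { J := Z.J ⊕ Fin 2, R := Option Z.R, π := blP (Fin 2) Z.π, A := pbA Z.A fun _ => ⊤
    pv := pb_pv Z.pv (subB_top Z)
    conn := by
      have c0 : Continuous fun p : (Z.J → ℂ) × (Fin 2 → ℂ) => Sum.elim p.1 p.2 :=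
        continuous_pi fun j => by
          rcases j with j | k <;> simp only [Sum.elim_inl, Sum.elim_inr] <;> fun_prop
      convert (Z.conn.prod (conn_ne (Fin 2))).image _ c0.continuousOn using 1
      exact Set.ext fun w => ⟨fun a => ⟨(_, _), ⟨a.1, a.2.1⟩, Sum.elim_comp_inl_inr w⟩,
        fun ⟨p, a, e⟩ => e ▸ ⟨a.1, a.2, trivial⟩⟩ }

/-- its projection -/
def lnP (Z : Var n) : P287Q.Ext (lnV Z) Z :=
  ⟨Sum.inl, some, Sum.inl_injective, Option.some_injective _, fun _ => rfl, fun _ h => h.1⟩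

theorem pt_ln {Z : Var n} {ξ : Z.J → K} (h : Pt Z ξ) (t : K) :
    Pt (lnV Z) (Sum.elim ξ ![1, t]) := by
  refine ⟨fun o => ?_, fun δ g _ hg => ?_⟩
  · rcases o with _ | r
    · exact ⟨.inr 0, rfl, one_ne_zero⟩
    · obtain ⟨j, a, b⟩ := h.nz r
      exact ⟨.inl j, congrArg some a, b⟩
  let G : Polynomial K := aeval (Sum.elim (fun j => Polynomial.C (ξ j)) ![1, Polynomial.X]) g
  have e : ∀ s : K, G.eval s = aeval (Sum.elim ξ ![1, s]) g := fun s => by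
    change ((Polynomial.aeval s).restrictScalars ℂ).comp (aeval _) g = _
    rw [comp_aeval]
    congr 2
    ext (j | j)
    · simp
    · fin_cases j <;> simp
  rw [← e, Polynomial.eq_zero_of_infinite_isRoot G ?_, Polynomial.eval_zero]
  refine (infinite_range_of_injective (algebraMap ℂ K).injective).mono ?_
  rintro _ ⟨s, rfl⟩
  have := h.van' (g := aeval (Sum.elim X (C ∘ ![1, s])) g) fun y hy => by
    rw [← hg (Sum.elim y ![1, s]) ⟨hy, fun a => one_ne_zero (congrFun a 0), trivial⟩,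
      ← coe_aeval_eq_eval, ← coe_aeval_eq_eval]
    change (aeval y).comp (aeval _) g = aeval _ g
    rw [comp_aeval]
    congr 2
    ext (j | j) <;> simp
  rw [mem_ofPred_eq, Polynomial.IsRoot, e, ← this]
  change _ = (aeval ξ).comp (aeval _) g
  rw [comp_aeval]
  congr 2
  ext (j | j)
  · simp
  · fin_cases j <;> simp

theorem ff_trdeg (h : FF K n) : Algebra.trdeg ℂ K = n := by
  obtain ⟨y, hy, hf⟩ := h
  have h2 : IsTranscendenceBasis ℂ y := hy.isTranscendenceBasis_iff_isAlgebraic.2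
    (IntermediateField.isAlgebraic_adjoin_iff_top.1 inferInstance)
  rw [← h2.cardinalMk_eq_trdeg, Cardinal.mk_fin]

theorem gp_ln (hD : DIM) {Z : Var n} {L : IntermediateField ℂ K} {ξ : Z.J → L} (h : Gp Z ξ) {t : K}
    (ht : IntermediateField.adjoin L {t} = ⊤) (hK : FF K (n + 1)) :
    Gp (lnV Z) (Sum.elim (L.val ∘ ξ) ![1, t]) := by
  have h1 : Pt Z (L.val ∘ ξ) := ⟨fun r => (h.nz r).imp fun j a => ⟨a.1, by simpa using a.2⟩,
    fun δ g a b => by
      have := congrArg L.val (h.van δ g a b)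
      rwa [← AlgHom.comp_apply, comp_aeval, map_zero] at this⟩
  have h2 : L ≤ fl (lnV Z).π (Sum.elim (L.val ∘ ξ) ![1, t]) := by
    refine le_trans ?_ (fl_comp (lnP Z).blk _)
    conv_lhs => rw [← L.fieldRange_val, AlgHom.fieldRange_eq_map, ← h.top, fl,
      IntermediateField.adjoin_map]
    refine IntermediateField.adjoin.mono _ _ _ ?_
    rintro _ ⟨_, ⟨j, j', a, rfl⟩, rfl⟩
    exact ⟨j, j', a, map_div₀ _ _ _⟩
  have h3 : fl (lnV Z).π (Sum.elim (L.val ∘ ξ) ![1, t]) = ⊤ := eq_top_iff.2 fun x _ =>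
    (IntermediateField.adjoin_le_iff (T := IntermediateField.extendScalars h2)).2
      (singleton_subset_iff.2 (by
        simpa using div_mem_fl (π := (lnV Z).π) (Sum.elim (L.val ∘ ξ) ![1, t])
          (j := .inr 1) (j' := .inr 0) rfl)) (ht.ge trivial)
  exact ⟨((hD _ _ _ _).2 (pt_ln h1 t)).2 ((trdeg_top h3).symm.trans (ff_trdeg hK)), h3⟩

theorem inv_core {d r : ℕ} {G B B₁ : Var 3} {Z : Var m} {Z₁ : Var 2} (hm : m ≤ 2)
    {a : P287Q.Ext G B} {a₁ : P287Q.Ext G B₁} (f : P287Q.Ext B Z) (f₁ : P287Q.Ext B₁ Z₁)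
    (ha : a.Bir) (ha₁ : a₁.Bir) (ua : Up a) (ua₁ : Up a₁) {ξ ξ₁} (h : LHB Z.ps B.ps r f.q ξ)
    (h₁ : LHB Z₁.ps B₁.ps 1 f₁.q ξ₁) (t : ξ ∈ B.T 1 1) (t₁ : ξ₁ ∈ B₁.T 1 1) (l : ξ ∈ Lam B.X)
    (l₁ : ξ₁ ∈ Lam B₁.X) (k : KT d Z₁) : KT d Z := by
  have e := (ua.comp (up_lhb f h t) 2).trans (ua₁.comp (up_lhb f₁ h₁ t₁) 2).symm
  obtain rfl : m = 2 := by
    by_contra hne
    obtain ⟨-, w, w0, w1, -⟩ := k
    rw [(Z.Hg_eq 2 0).trans ((hgv _ Z).out _ _ (.inr (.inr (.inl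
      (show (m : ℤ) < (2 : ℕ) by omega))))), Submodule.map_bot] at e
    have : (a₁.comp f₁).pb w = 0 := e.ge ⟨w, w1.ge (Submodule.mem_span_singleton_self w), rfl⟩
    rw [Ext.pb_comp] at this
    exact w0 (h₁.injective ((ha₁.pb_inj (this.trans (map_zero _).symm)).trans (map_zero _).symm))
  obtain rfl : r = 1 := by
    have : ((3 : ℕ) : ℤ) = (2 : ℕ) + r := h.dim
    omega
  refine kt_of (a.comp f) (a₁.comp f₁) ⟨Lam.map a.q l, h.deg.map a.q⟩
    ⟨Lam.map a₁.q l₁, h₁.deg.map a₁.q⟩ (fun x => ?_) (fun x => ?_) e k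
  · rw [Ext.pb_comp, ← Ext.pb_eq, ← map_mul, ha.int_pb, ← pow_one ξ]
    exact h.int x
  · rw [Ext.pb_comp, ← Ext.pb_eq, ← map_mul, ha₁.int_pb, ← pow_one ξ₁]
    exact h₁.int x

/-- **INV** -/
theorem inv_of (hM : MAP) (hB : GPB) (hD : DIM) : INV := by
  rintro d Y c K _ _ ζ h ⟨L, ⟨m, Z, ξ, h1, k⟩, t, -, ht⟩
  obtain rfl := k.1
  have : Holo.IsAct (scl (blP (Fin 2) Z.π)) univ := isAct_scl _
  obtain ⟨G, a, b, a1, b1, a2, b2⟩ :=
    exists_roof' hM hB (n := 3) h (gp_ln hD h1 ht ((hD 3 _ _ _).1 h))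
  exact inv_core (by have := c.cod; omega) (eP c) (lnP Z) a1 b1 a2 b2
    (pb_lhb' (c.cut.subB Y.pv c.pv (hd c)) c.Z.qm (E c).qm (by have := c.cod; omega))
    (pb_lhb' (subB_top Z) Z.qm (lnV Z).qm rfl) ((hgp _ _ _ _ _ (E c).pv).2 none)
    ((hgp _ _ _ _ _ (lnV Z).pv).2 none) (lcq_Lk (E c).qm (hm_crd none)).1
    (lcq_Lk (lnV Z).qm (hm_crd none)).1 k

end Vale.Agent.P287D.Nc
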