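import Vale.Agent.P287D.Nc.Pa0
import Vale.Agent.P287T.Kx.L0
import Vale.Agent.P287Q.Wg.Blm0

/-!
# P287D: the rows PLA and PLB (the place of the exceptional divisor)
-/

namespace Vale.Agent.P287D.Nc

open Set Function MvPolynomial P287Q P287T.Kx P297Z.Pl Filter Topology IsLocalRing
open Vale.Agent.P297 (Place)

namespace Pa

variable {K : Type} [Field K] [Algebra ℂ K]

theorem mkP {σ : Type} [Finite σ] {x : σ → K} (I : Ideal (MvPolynomial σ ℂ)) [I.IsPrime]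
    (h1 : ∀ p : MvPolynomial σ ℂ, aeval x p = 0 → p ∈ I)
    (h2 : ∀ f, ∃ p q : MvPolynomial σ ℂ, f = aeval x p / aeval x q) {e : MvPolynomial σ ℂ}
    (he : e ∈ I) (h0 : aeval x e ≠ 0) (h : ∀ p ∈ I, ∃ s ∉ I, ∃ a, aeval x (s * p - a * e) = 0) :
    ∃ P : Place K, (∀ f, f ∈ P.ring ↔ ∃ p : MvPolynomial σ ℂ, ∃ q ∉ I,
      f = aeval x p * (aeval x q)⁻¹) ∧ ∀ p k, (⟨aeval x p, k⟩ : P.ring) ∈ maximalIdeal P.ring ↔ p ∈ I := by
  let φ := (aeval x : MvPolynomial σ ℂ →ₐ[ℂ] K).toRingHom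
  have s := φ.rangeRestrict_surjective
  have k : ∀ p, φ.rangeRestrict p ∈ I.map φ.rangeRestrict ↔ p ∈ I := fun p =>
    ⟨fun a => by
      obtain ⟨q, b, c⟩ := (Ideal.mem_map_iff_of_surjective _ s).1 a
      simpa using add_mem (h1 (p - q) (by
        rw [map_sub, sub_eq_zero]; exact congrArg Subtype.val c.symm)) b, Ideal.mem_map_of_mem _⟩
  have := Ideal.map_isPrime_of_surjective s (I := I) fun p a => h1 p (congrArg Subtype.val a)
  have : IsFractionRing φ.range K := .of_field _ _ fun f =>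
    let ⟨p, q, a⟩ := h2 f
    ⟨φ.rangeRestrict p, φ.rangeRestrict q, a⟩
  obtain ⟨P, hP⟩ := mk_place (K := K) (I.map φ.rangeRestrict) ((k e).2 he)
    (fun a => h0 (congrArg Subtype.val a)) (s.forall.2 fun p a => by
      obtain ⟨u, b, v, c⟩ := h p ((k p).1 a)
      rw [map_sub, sub_eq_zero, map_mul, map_mul] at c
      exact ⟨_, mt (k u).1 b, φ.rangeRestrict v, Subtype.ext c⟩)
  simp only [s.exists, k] at hP
  refine ⟨P, hP, fun p _ => ?_⟩
  rw [← ValuationSubring.coe_mem_nonunits_iff, ValuationSubring.mem_nonunits_iff_or, hP]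
  refine ⟨fun a => a.elim (h1 p) fun a => by_contra fun b => a ⟨1, p, b, ?_⟩,
    fun a => or_iff_not_imp_left.2 fun b ⟨u, q, c, d⟩ => c ?_⟩
  · rw [map_one, map_one, one_mul]
    rfl
  have q0 : aeval x q ≠ 0 := mt (h1 q) c
  have d' : (aeval x p)⁻¹ = aeval x u * (aeval x q)⁻¹ := d
  simpa using add_mem (h1 (q - u * p) (by
    rw [map_sub, map_mul, (eq_mul_inv_iff_mul_eq₀ q0).1 d' |>.symm, mul_right_comm,
      inv_mul_cancel₀ b, one_mul, sub_self])) (I.mul_mem_left u a)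

theorem hom_ex {J R : Type} [Fintype J] [Fintype R] [DecidableEq R] {π : J → R} (s : Sel π)
    (p : MvPolynomial J ℂ) : ∃ δ g, WHom (bw π) δ g ∧ ∀ (L : Type) [Field L] [Algebra ℂ L]
      (z : J → L), (∀ r, z (s.1 r) = 1) → aeval z g = aeval z p :=
  let ⟨_, g, a, b⟩ := exists_hom id (fun j => s.1 (π j)) (fun j => (s.2 _).symm) p
  ⟨_, g, a, fun L _ _ z e => by simp [b L z (by simp [e]), e]⟩

variable {n : ℕ} {Y : Var (n + 1)} (c : Ctr Y)

/-- the equations of the centre on the blow-up -/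
noncomputable def ee (k : Fin c.k) : MvPolynomial c.bl.J ℂ := rename .inl (c.g k)

theorem whom_ee (k : Fin c.k) : WHom (bw c.bl.π) (fun o => o.elim 0 c.δ) (ee c k) :=
  Wg.whom_rename (Eq.subst (motive := fun w => WHom w _ _) (funext₂ fun j o => by
    rcases o with _ | r <;> simp [bw, blP, Pi.single_apply]) (Wg.whom_map (c.cut.hom k) id))

theorem exc_zero {y : c.bl.J → ℂ} (hy : y ∈ (E c).A) (k : Fin c.k) : eval y (ee c k) = 0 :=
  (eval_rename _ _ _).trans (congrFun ((c.cut.zero _ (c.cut.sub hy.1)).1 hy.1) k)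

/-- One equation of the centre is a local equation of the exceptional divisor. -/
theorem key {w : c.bl.J → ℂ} (hw : w ∈ (E c).A) {k : Fin c.k} (hk : w (.inr k) ≠ 0) :
    (¬ ∀ y ∈ c.bl.A, eval y (ee c k) = 0) ∧ ∀ p : MvPolynomial c.bl.J ℂ,
      (∀ y ∈ (E c).A, eval y p = 0) → ∃ s a : MvPolynomial c.bl.J ℂ, eval w s ≠ 0 ∧
        ∀ y ∈ c.bl.A, eval y (s * p - a * ee c k) = 0 := by
  obtain ⟨N, δ, G, hG⟩ := eqs c.bl
  have hb := c.cut.mem_exc'.1 hw
  have hz := fun y => exc_zero c (y := y) (k := k)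
  have hs : ∀ y ∈ c.bl.A, eval y (ee c k) = blE c.g y * y (.inr k) := fun y a =>
    (eval_rename _ _ _).trans (congrFun (blE_spec a) k)
  generalize ee c k = e at hz hs ⊢
  have a1 : AnalyticAt ℂ (fun s : c.bl.J → ℂ => (s (.inr k))⁻¹) w :=
    (analyticAt_pi_iff.1 analyticAt_id _).inv hk
  obtain ⟨v, v1, v2⟩ := c.cut.exc_tn Y.pv c.pv hb.1 hb.2 ((an_eval e w).fun_mul a1) (by
    filter_upwards [(continuous_apply _).continuousAt.eventually_ne hk] with s a b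
    rw [hs s b, mul_inv_cancel_right₀ a])
  have v3 : dP w e v ≠ 0 := fun a => by
    simp [((hasFDerivAt_eval e w).fun_mul a1.differentiableAt.hasFDerivAt).fderiv, hz w hw, a] at v2
  have t : ∀ {A m}, P269.Holo.MfdAt A m w → (∀ y ∈ A, eval y e = 0) → ∀ u ∈ tn A w, dP w e u = 0 :=
    fun a b u d => (hasFDerivAt_eval e w).fderiv ▸ fderiv_eq_zero a (an_eval e w) (.of_forall b) d
  refine ⟨fun a => v3 (t (c.bl.pv.mfd w hb.1) a v v1), fun p hp => ?_⟩
  have t1 : tn (E c).A w = tn c.bl.A w ⊓ LinearMap.ker (dP w e).toLinearMap := by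
    refine Submodule.eq_of_le_of_finrank_le (le_inf (tn_mono c.cut.exc_sub)
      (t ((E c).pv.mfd w hw) hz)) ?_
    have := Submodule.finrank_lt_finrank_of_lt (lt_of_le_of_ne
      (inf_le_left (b := LinearMap.ker (dP w e).toLinearMap)) fun a => v3 (a.ge v1).2)
    rw [finrank_tn (c.bl.pv.mfd w hb.1)] at this
    rw [finrank_tn ((E c).pv.mfd w hw)]
    exact Nat.le_of_lt_succ (this.trans_eq (Nat.add_right_comm _ _ _))
  have g0 : ∀ y ∈ c.bl.A, ∀ i, eval y (G i) = 0 := fun y a =>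
    congrFun ((hG.zero y (hG.sub a)).1 a)
  obtain ⟨ψ, b, rfl⟩ := ((E c).pv.mfd w hw).prm
  obtain ⟨s, s1, s2⟩ := krp (fun o : Option (Fin N) => o.elim e G) b.an b.imm
    (fun u a => b.mem_tn.1 (t1.ge ⟨hG.jac _ hb.1 u (by rw [tn_ust (hG.sub hb.1)]; trivial)
      (funext fun i => by rw [fderiv_gv, (hasFDerivAt_eval _ _).fderiv]; exact a (some i)), a none⟩))
    (b.mem.mono fun x a o => o.rec (hz _ a) (g0 _ (c.cut.exc_sub a))) (α := Empty)
    (b := Empty.elim) (h := Empty.elim) (g := p) (·.elim) (by simpa using b.mem.mono fun x => hp _)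
  rw [range_eq_empty Empty.elim, Ideal.span_empty, sup_bot_eq, Ideal.mem_span_range_iff_exists_fun] at s2
  obtain ⟨u, s2⟩ := s2
  exact ⟨s, u none, s1, fun y a => by simp [← s2, g0 y a]⟩

theorem core (hD : DIM) {L : Type} [Field L] [Algebra ℂ L] {η : c.bl.J → K} (h : Gp c.bl η)
    {z : (E c).J → L} (hz : Gq (E c) z) :
    ∃ P : Pl K, Pc c η P ∧ ∀ (Q : Pl K) ζ, Rd c.bl.π Q η ζ → Gq (E c) ζ → Q = P := by
  obtain ⟨w, hw⟩ := (E c).conn.nonempty
  obtain ⟨s, hs⟩ := sel ((E c).pv.sub hw)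
  have w1 := (E c).pv.inv (fun r => (w (s.1 r))⁻¹) (unit_iff.2 fun r => inv_ne_zero (hs r)) w hw
  have w2 := nrm_one s hs
  have x0 := fun r => h.ne (c.cut.exc_sub hw) (hs r)
  have z0 := fun r => hz.ne hw (hs r)
  have x1 := Sim.gp (V := c.bl) (sim_nrm s x0) h
  have x2 := nrm_one s x0
  have z1 := (sim_nrm s z0).gq hz
  have z2 := nrm_one s z0
  obtain ⟨k, hk⟩ : ∃ k, s.1 none = .inr k := by
    obtain ⟨j | k, a, b⟩ : ∃ j, s.1 none = j ∧ c.bl.π j = none := ⟨_, rfl, s.2 _⟩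
    exacts [(nomatch b), ⟨k, a⟩]
  obtain ⟨k1, k2⟩ := key c w1 (k := k) (hk ▸ (w2 none).trans_ne one_ne_zero)
  have := RingHom.ker_isPrime (aeval (nrm s z) : MvPolynomial _ ℂ →ₐ[ℂ] L)
  obtain ⟨P, p1, p2⟩ := mkP (RingHom.ker (aeval (nrm s z) : _ →ₐ[ℂ] L))
    (fun p a => ker_pt z1.toPt s z2 fun y b => ker_gq x1.toGq s x2 a y (c.cut.exc_sub b))
    (frac x1.top) (ker_pt z1.toPt s z2 fun y b _ => exc_zero c b k)
    (fun a => k1 (x1.gen _ _ (whom_ee c k) a)) fun p a => by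
      obtain ⟨δ, g, b, d⟩ := hom_ex s p
      obtain ⟨u, v, u1, u2⟩ := k2 g (z1.gen _ _ b ((d L _ z2).trans a))
      refine ⟨u, fun e => u1 (ker_gq z1 s z2 e _ w1 w2), v, ?_⟩
      simpa [d K _ x2] using ker_pt x1.toPt s x2 fun y e _ => u2 y e
  have m : ∀ p : MvPolynomial _ ℂ, aeval (nrm s η) p ∈ P.ring := fun p =>
    (p1 _).2 ⟨p, 1, by simp, by simp⟩
  have con : ∀ a, algebraMap ℂ K a ∈ P.ring := fun a => by simpa using m (C a)
  have m' : ∀ j, nrm s η j ∈ P.ring := fun j => by simpa using m (X j)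
  let := (cst P con).toAlgebra
  let ζ := fun j => residue P.ring ⟨_, m' j⟩
  have r1 : ∀ p : MvPolynomial _ ℂ, aeval ζ p = residue P.ring ⟨_, m p⟩ := fun p => by
    let a := (algebraMap ℂ K).codRestrict P.ring con
    have e : aeval (nrm s η) p = P.ring.subtype (eval₂ a (fun j => ⟨_, m' j⟩) p) := by
      rw [eval₂_comp_left]; rfl
    rw [show (⟨_, m p⟩ : P.ring) = eval₂ a (fun j => ⟨_, m' j⟩) p from Subtype.ext e]
    exact (eval₂_comp_left (residue P.ring) a _ p).symm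
  have r2 : ∀ p : MvPolynomial _ ℂ, aeval ζ p = 0 ↔ aeval (nrm s z) p = 0 := fun p => by
    rw [r1, residue_eq_zero_iff, p2, RingHom.mem_ker]
  have r3 : ∀ r, ζ (s.1 r) = 1 := fun r =>
    (congrArg (residue P.ring) (Subtype.ext (x2 r) : (⟨_, m' _⟩ : P.ring) = 1)).trans (map_one _)
  have r4 : Gp (E c) ζ := ⟨⟨⟨fun r => ⟨_, s.2 r, (r3 r).trans_ne one_ne_zero⟩,
    fun δ g a b => (r2 g).2 (z1.van δ g a b)⟩, fun δ g a b => z1.gen δ g a ((r2 g).1 b)⟩,
    eq_top_iff.2 fun t _ => by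
      obtain ⟨⟨f, a⟩, rfl⟩ := residue_surjective t
      obtain ⟨p, q, b, rfl⟩ := (p1 f).1 a
      have q0 : aeval (nrm s η) q ≠ 0 := fun e =>
        b ((p2 q (m q)).1 ((mem_maximalIdeal_iff P _).2 (.inl e)))
      have e : residue P.ring ⟨_, a⟩ * aeval ζ q = aeval ζ p := by
        rw [r1, r1, ← map_mul]
        exact congrArg _ (Subtype.ext (inv_mul_cancel_right₀ q0 _))
      rw [eq_div_of_mul_eq (mt (r2 q).1 b) e]
      exact div_mem (aeval_mem r3 p) (aeval_mem r3 q)⟩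
  let P' : Pl K := ⟨P, con, by
    rw [ff_trdeg ((hD _ _ _ _).1 r4), ff_trdeg ((hD _ _ _ _).1 h), Nat.cast_succ]⟩
  refine ⟨P', ⟨ζ, ⟨r4.nz, _, sim_nrm s x0, fun j => ⟨m' j, (rd_of (P := P') _).symm⟩⟩, r4⟩,
    fun Q θ a b => (Pl.ext' (congrArg Place.ring
      (eq_of_le' (v := P) (w := Q.toPlace) fun f e => ?_))).symm⟩
  have t0 := fun r => b.ne hw (hs r)
  obtain ⟨p, q, d, rfl⟩ := (p1 f).1 e
  have t1 := rd_aeval fun j => ((rd_nrm a s t0).2 j).1
  rw [← funext fun j => ((rd_nrm a s t0).2 j).2] at t1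
  have t2 := (rd_ne_iff (t1 q).1).1 ((t1 q).2.trans_ne fun e => d
    (ker_pt z1.toPt s z2 (ker_gq ((sim_nrm s t0).gq b) s (nrm_one s t0) e)))
  exact mul_mem (t1 p).1 ((ord_eq_zero_iff _ t2.1).1 t2.2).2

/-- Off the centre the blow-up has the residue fields of the base. -/
theorem fl_off {ζ : c.bl.J → K} (h : Pt c.bl ζ) {s : Sel c.bl.π} (hs : ∀ r, ζ (s.1 r) = 1)
    {l : Fin c.k} (hl : aeval ζ (ee c l) ≠ 0) : fl c.bl.π ζ ≤ fl Y.π (ζ ∘ .inl) := by
  have a : ∀ k, ζ (.inr k) * aeval ζ (ee c l) = ζ (.inr l) * aeval ζ (ee c k) := fun k => by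
    have := ker_pt h s hs (p := X (.inr k) * ee c l - X (.inr l) * ee c k) fun y e _ => by
      simp only [ee, map_sub, map_mul, eval_X, eval_rename]
      rw [show eval _ (c.g l) = _ from congrFun (blE_spec e) l,
        show eval _ (c.g k) = _ from congrFun (blE_spec e) k]
      simp only [Pi.smul_apply, comp_apply, smul_eq_mul]
      ring
    simpa [sub_eq_zero] using this
  have b : ζ (.inr l) ≠ 0 := fun e => by
    obtain ⟨j | k, u, v⟩ := h.nz none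
    exacts [(nomatch u), v ((mul_eq_zero.1 ((a k).trans (mul_eq_zero_of_left e _))).resolve_right hl)]
  have d : ∀ r, ∃ j, Y.π j = r ∧ ζ (.inl j) = 1 := fun r => by
    obtain ⟨j | k, u, v⟩ : ∃ j, c.bl.π j = some r ∧ ζ j = 1 := ⟨_, s.2 _, hs _⟩
    exacts [⟨j, Option.some.inj u, v⟩, nomatch u]
  choose t t1 t2 using d
  have e : ∀ k, aeval ζ (ee c k) ∈ fl Y.π (ζ ∘ .inl) := fun k => by
    rw [ee, aeval_rename]
    exact aeval_mem (s := ⟨t, t1⟩) t2 _
  refine IntermediateField.adjoin_le_iff.2 ?_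
  rintro _ ⟨j | k, j' | k', u, rfl⟩
  · exact div_mem_fl (ζ ∘ .inl) (Option.some.inj u)
  · exact nomatch u
  · exact nomatch u
  rw [eq_div_of_mul_eq hl (a k), eq_div_of_mul_eq hl (a k'), div_div_div_cancel_right₀ hl,
    mul_div_mul_left _ _ b]
  exact div_mem (e k) (e k')

/-- Over the centre the points of the blow-up are points of the exceptional divisor. -/
theorem pt_exc {ζ : c.bl.J → K} (h : Pt c.bl ζ) {s : Sel c.bl.π} (hs : ∀ r, ζ (s.1 r) = 1)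
    (hl : ∀ l, aeval ζ (ee c l) = 0) : Pt (E c) ζ := by
  refine ⟨h.nz, fun _ g _ b => (nss (x := ζ) (p := g) fun y hy => ?_).eq_zero⟩
  have a : y ∈ c.bl.A := mem_of h (fun r => ⟨_, s.2 r, fun e => by
    have := hy (X (s.1 r) - 1) (by simp [hs])
    simp [e] at this⟩) hy
  refine b y (c.cut.mem_exc.2 ⟨a, (c.cut.zero _ a.1).2 (funext fun l => ?_)⟩)
  simpa only [ee, eval_rename, gv, Pi.zero_apply] using hy _ (hl l)

end Pa

open Pa

/-- **PLA** -/
theorem pla_of (h0 : GP0) (hD : DIM) : PLA := fun _ _ c _ _ _ _ h =>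
  let ⟨_, _, _, _, a⟩ := h0 _ (E c)
  let ⟨P, b, _⟩ := core c hD h a.toGq
  ⟨P, b⟩

/-- **PLB** -/
theorem plb_of (hD : DIM) (hX : PTX) : PLB := by
  rintro n Y c K _ _ η P h ⟨ζ, h1, h2⟩
  refine ⟨⟨ζ, h1, ⟨fun x => isAlgebraic_algebraMap (⟨x, h2.top.ge trivial⟩ : fl _ ζ)⟩⟩,
    fun a => ?_, fun Q ⟨θ, a, b⟩ d => ?_⟩
  · have b := (hD _ _ _ _).2 (hX _ _ _ _ (eP c) _ _ h2.toPt)
    have d := trdeg_alg ((h1.comp hX c.down h.toPt).pr.1 a)
    rw [ff_trdeg ((hD _ _ _ _).1 h2)] at d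
    have := Nat.cast_le.1 (d.ge.trans b.1)
    have := c.cod
    omega
  obtain ⟨P', -, e⟩ := core c hD h h2.toGq
  obtain ⟨s, hs⟩ := sel a.1
  have a' := rd_nrm' a s hs
  have b' := a'.pr.1 ⟨θ, a, b⟩
  by_cases k : ∀ l, aeval (nrm s θ) (ee c l) = 0
  · refine (e Q _ a' (((hD _ _ _ _).2 (pt_exc c (a'.pt h.toPt) (nrm_one s hs) k)).2
      ((trdeg_alg b').trans (Cardinal.add_one_inj.1 (Q.dvl.trans ?_))))).trans (e P ζ h1 h2.toGq).symm
    rw [ff_trdeg ((hD _ _ _ _).1 h), Nat.cast_succ]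
  · obtain ⟨l, k⟩ := not_forall.1 k
    exact (d ⟨_, a'.comp hX c.down h.toPt,
      alg_mono (fl_off c (a'.pt h.toPt) (nrm_one s hs) k) b'⟩).elim

end Vale.Agent.P287D.Nc
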