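import Vale.Agent.P287D.Nc.Bij

/-!
# P287D: the row RUL
-/

namespace Vale.Agent.P287D.Nc

open Set Function MvPolynomial P287Q TensorProduct

namespace Pa

theorem mem_of_nil {F L : Type} [Field F] [Field L] [Algebra F L] [CharZero F] {a : L}
    (h : IsNilpotent (a ⊗ₜ[F] (1 : L) - (1 : L) ⊗ₜ[F] a)) : a ∈ range (algebraMap F L) := by
  have i := (alg_of_nil h).isIntegral
  obtain ⟨k, e⟩ := ((minpoly F a).map (algebraMap F _)).binomExpansion ((1 : L) ⊗ₜ[F] a)
    (a ⊗ₜ[F] (1 : L) - (1 : L) ⊗ₜ[F] a)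
  have l := Polynomial.aeval_algHom_apply
    (Algebra.TensorProduct.includeLeft (R := F) (S := F) (B := L)) a
  have r := Polynomial.aeval_algHom_apply (Algebra.TensorProduct.includeRight (R := F) (A := L)) a
  simp only [Algebra.TensorProduct.includeLeft_apply, Algebra.TensorProduct.includeRight_apply]
    at l r
  simp only [Polynomial.derivative_map, Polynomial.eval_map_algebraMap, add_sub_cancel, l, r,
    minpoly.aeval, zero_tmul, tmul_zero, zero_add] at e
  have u := ((minpoly.irreducible i).separable.aeval_derivative_ne_zero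
    (minpoly.aeval F a)).isUnit.map (Algebra.TensorProduct.includeRight (R := F) (A := L))
  have d := ((Commute.all k _).isNilpotent_mul_left h).isUnit_add_left_of_commute u (.all _ _)
  have z : a ⊗ₜ[F] (1 : L) = (1 : L) ⊗ₜ[F] a := sub_eq_zero.1 (d.mul_right_eq_zero.1 (by
    rw [e, add_mul, mul_assoc, sq]; rfl))
  obtain ⟨g, hg⟩ := (Algebra.linearMap F L).exists_leftInverse_of_injective
    (LinearMap.ker_eq_bot.2 (algebraMap F L).injective)
  have g1 : g 1 = 1 := by simpa using congr($hg 1)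
  have := congrArg (fun v => TensorProduct.rid F L (g.lTensor L v)) z.symm
  exact ⟨g a, by simpa [g1, Algebra.algebraMap_eq_smul_one] using this⟩

variable {n : ℕ} {Y : Var (n + 1)} (c : Ctr Y) {K T : Type} [Field K] [Algebra ℂ K] [CommRing T]
  [Algebra ℂ T] {ζ : (E c).J → K} {s : Sel (E c).π}

/-- three points of one fibre lie on a line -/
theorem tri (hm : c.m + 1 = n) (h : Pt (E c) ζ) (hs : ∀ r, ζ (s.1 r) = 1) (φ : Fin 3 → K →ₐ[ℂ] T)
    (e : ∀ i j, φ i (ζ (.inl j)) = φ 0 (ζ (.inl j))) {a : Fin c.k}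
    (ea : φ 1 (ζ (.inr a)) = φ 0 (ζ (.inr a))) (j : Fin c.k) : IsNilpotent
      ((φ 0 (ζ (.inr j)) - φ 1 (ζ (.inr j))) * (φ 0 (ζ (.inr a)) - φ 2 (ζ (.inr a)))) := by
  have := nss (x := fun p : Fin 3 × (E c).J => φ p.1 (ζ p.2)) (p := (X (0, .inr j) - X (1, .inr j)) *
    (X (0, .inr a) - X (2, .inr a))) fun y hy => ?_
  · simpa using this
  have k := fun i => clo h hs hy (Prod.mk i) (φ i) rfl
  obtain ⟨l, hl⟩ : ∃ l, s.1 none = .inr l := by
    obtain ⟨j | k, a, b⟩ : ∃ j, s.1 none = j ∧ c.bl.π j = none := ⟨_, rfl, s.2 _⟩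
    exacts [(nomatch b), ⟨k, a⟩]
  have k1 : ∀ i, y (i, .inr l) = 1 := fun i => hl ▸ (k i).1 none
  have k2 : y (1, .inr a) = y (0, .inr a) := by
    have := hy (X (1, .inr a) - X (0, .inr a)) (by simp [ea])
    simpa [sub_eq_zero] using this
  have k3 : ∀ i, (y ∘ Prod.mk i) ∘ .inl = (y ∘ Prod.mk 0) ∘ .inl := fun i => funext fun j => by
    have := hy (X (i, .inl j) - X (0, .inl j)) (by simp [e i])
    simpa [sub_eq_zero] using this
  by_contra d
  simp only [map_mul, map_sub, eval_X, mul_eq_zero, not_or] at d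
  have k4 : LinearIndependent ℂ fun i : Fin 3 => (⟨(y ∘ Prod.mk i) ∘ .inr, k3 i ▸ (k i).2.2.2⟩ :
      nrmB Y.A c.g ((y ∘ Prod.mk 0) ∘ .inl)) := Fintype.linearIndependent_iff.2 fun t ht => by
    have b := fun q => congrFun (congrArg Subtype.val ht) q
    simp only [Fin.sum_univ_three, Submodule.coe_add, Submodule.coe_smul, Pi.add_apply,
      Pi.smul_apply, comp_apply, smul_eq_mul, Submodule.coe_zero, Pi.zero_apply] at b
    have b1 := b l
    have b2 := b a
    rw [k1, k1, k1] at b1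
    rw [k2] at b2
    have t2 : t 2 = 0 := (mul_eq_zero_iff_right d.2).1 (by
      linear_combination y (0, .inr a) * b1 - b2)
    have t1 : t 1 = 0 := (mul_eq_zero_iff_right d.1).1 (by
      linear_combination y (0, .inr j) * b1 - b j - (y (0, .inr j) - y (2, .inr j)) * t2)
    exact Fin.forall_fin_succ.2 ⟨by linear_combination b1 - t1 - t2, Fin.forall_fin_two.2 ⟨t1, t2⟩⟩
  have := k4.fintype_card_le_finrank
  rw [(c.cut.subB Y.pv c.pv (r := 1) (by omega)).rank (k 0).2.1] at this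
  simp at this

end Pa

open Pa in
/-- **RUL** -/
theorem rul_of (hD : DIM) (hX : PTX) : RUL := by
  intro n Y c K _ _ ζ hm h
  obtain ⟨s, hs⟩ := sel h.nz
  rw [show fl Y.π (ζ ∘ .inl) = _ from ((sim_nrm s hs).comp (eP c)).fl]
  have h1 := (sim_nrm s hs).gp h
  have h2 := nrm_one s hs
  generalize nrm s ζ = z at h1 h2 ⊢
  set L := fl Y.π (z ∘ .inl)
  have m : ∀ j, z (.inl j) ∈ L := fun j => by
    obtain ⟨j' | k, u, v⟩ : ∃ j', c.bl.π j' = some (Y.π j) ∧ z j' = 1 := ⟨_, s.2 _, h2 _⟩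
    exacts [by simpa [v] using div_mem_fl (z ∘ .inl) (Option.some.inj u).symm, nomatch u]
  have t : ∀ F : IntermediateField L K, (∀ k, z (.inr k) ∈ F) → F = ⊤ := fun F a => by
    have b : ∀ j, z j ∈ F := fun j => j.rec (fun j => F.algebraMap_mem ⟨_, m j⟩) a
    refine eq_top_iff.2 fun x _ => (IntermediateField.adjoin_le_iff.2 ?_ :
      fl _ z ≤ F.restrictScalars ℂ) (h1.top.ge trivial)
    rintro _ ⟨j, j', -, rfl⟩
    exact div_mem (b j) (b j')
  obtain ⟨a, ha⟩ : ∃ a, Transcendental L (z (.inr a)) := by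
    by_contra! k
    have d := trdeg_alg (L := L) ⟨fun x => mem_algebraicClosure_iff.1
      ((t _ fun a => mem_algebraicClosure_iff.2 (not_not.1 (k a))).ge trivial)⟩
    rw [ff_trdeg ((hD _ _ _ _).1 h1)] at d
    have := Nat.cast_le.1 (d.ge.trans ((hD _ _ _ _).2 (hX _ _ _ _ (eP c) _ _ h1.toPt)).1)
    omega
  refine ⟨_, ha, t _ fun j => ?_⟩
  let F := (IntermediateField.adjoin L {z (.inr a)}).restrictScalars ℂ
  have k : ∀ (Ω : Type) [Field Ω] [Algebra ℂ Ω] (l r : K →ₐ[ℂ] Ω), (∀ x ∈ F, r x = l x) →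
      l (z (.inr j)) - r (z (.inr j)) = 0 := fun Ω _ _ l r e => by
    let : Algebra L Ω := (l.toRingHom.comp (algebraMap L K)).toAlgebra
    have : IsScalarTower ℂ L Ω := .of_algebraMap_eq fun x => (l.commutes x).symm
    let i : Ω →ₐ[ℂ] Ω ⊗[L] K := Algebra.TensorProduct.includeLeft
    have b := tri c hm h1.toPt h2
      ![i.comp l, i.comp r, Algebra.TensorProduct.includeRight.restrictScalars ℂ]
      (Fin.forall_fin_succ.2 ⟨fun _ => rfl, Fin.forall_fin_two.2
        ⟨fun j => congrArg i (e _ ((IntermediateField.adjoin L _).algebraMap_mem ⟨_, m j⟩)), fun j =>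
          show 1 ⊗ₜ z (.inl j) = algebraMap L Ω ⟨_, m j⟩ ⊗ₜ 1 by
            simpa [Algebra.smul_def] using (smul_tmul (⟨_, m j⟩ : L) (1 : Ω) (1 : K)).symm⟩⟩)
      (congrArg i (e _ (IntermediateField.mem_adjoin_simple_self L _))) j
    by_contra d
    have u := (Ne.isUnit d).map i
    rw [map_sub] at u
    exact ha (alg_of_nil ((IsUnit.isNilpotent_unit_mul_of_commute_iff u (.all _ _)).1 b))
  obtain ⟨x, e⟩ := mem_of_nil (F := F) (a := z (.inr j)) (nilpotent_iff_mem_prime.2 fun p _ => by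
    let ρ := IsScalarTower.toAlgHom ℂ (K ⊗[F] K) p.ResidueField
    exact Ideal.algebraMap_residueField_eq_zero.1 ((map_sub ρ _ _).trans (k _
      (ρ.comp Algebra.TensorProduct.includeLeft)
      (ρ.comp (Algebra.TensorProduct.includeRight.restrictScalars ℂ)) fun x e => congrArg ρ (by
        simpa [Algebra.smul_def] using (smul_tmul (⟨x, e⟩ : F) (1 : K) (1 : K)).symm))))
  exact e ▸ x.2

end Vale.Agent.P287D.Nc
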