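import Vale.Agent.P287D.Nc.Top
import Vale.Agent.P287D.Sk2

/-!
# P287D, the net count: the output for rational fields
-/

namespace Vale.Agent.P287D.Nc

open Set Function P287Q P287Q.Top P287T

/-- **PGR**: the subfields of a rational field have no forms -/
def PGR : Prop := ∀ (K : Type) [Field K] [Algebra ℂ K] (y : (Pn 4).J → K), Gp (Pn 4) y → Pg0 K

/-- the count, in a field without subfields of dimension two and positive genus -/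
def CNT' : Prop :=
  ∃ R : ℤ, ∀ (F : MvPolynomial (Fin 6) ℂ) (d : ℕ), Per.Sm F → Ex.Gen F d → R < d →
    P287Q.Cub.Bir F → ∃ (S : Cls) (K : Type) (_ : Field K) (_ : Algebra ℂ K) (Λ Λ' : BD K),
      SCl d S ∧ FF K 4 ∧ Pg0 K ∧ Fano1 3 Λ ∧ Fano1 3 Λ' ∧ cnt S Λ Λ' ≠ cnt S Λ' Λ

theorem cnt_of' (h0 : GP0) (hD : DIM) (hG : GPD) (hO : ONB) (hN : NET) (hF : F1.FAN) (hK : K3E)
    (hP : PGR) : CNT' := by
  obtain ⟨d₀, hK⟩ := hK
  refine ⟨d₀, fun F d sm g l b => ?_⟩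
  have l' : d₀ < d := by exact_mod_cast l
  obtain ⟨h, c, σ, s0, hσ⟩ := cubV F sm.hom sm.sm
  obtain ⟨h₀, c₀, -⟩ := p4
  obtain ⟨W, t, Γ, q, p, -, hq, hp⟩ := tow F sm.hom sm.sm b h c h₀ c₀
  have e : one h₀ c₀ = Pn 4 := one_eq_Pn (ext fun _ => mem_Ust_unit.symm) h₀ c₀
  obtain ⟨t⟩ := Tw.of_tow ((congrArg (Tow · W) e).mp t)
  obtain ⟨K, _, _, η, gη⟩ := h0 _ Γ
  have gx := hG _ _ _ p _ _ gη hp
  have gy := hG _ _ _ (q.comp t.dn) _ _ gη (hq.comp t.dn_bir)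
  have f := (hD _ _ _ _).1 gη
  refine ⟨SK d, K, _, _, _, _, ⟨fun L L' _ _ _ _ e ⟨m, Z, ξ, a, k⟩ => ⟨m, Z, _, a.map e, k⟩,
    hK d l'.le⟩, f, hP K _ gy, hF.p4 K _ gy, hF.cub F sm.hom sm.sm h c K _ gx, ?_⟩
  rw [cnt_eq hO d f gy.nz gx.nz, cnt_eq hO d f gx.nz gy.nz]
  exact (hN d _ σ K _ _ (cubP F sm.hom sm.sm h c) s0 hσ (tx sm (by omega) g h c s0 hσ) gx gy).ne

theorem noBir_of' (h : SARK') (c : CNT') : P287D.Top.NoBir := by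
  obtain ⟨d₀, h⟩ := h
  obtain ⟨R, c⟩ := c
  refine ⟨max R d₀, fun F d a b l => ⟨fun e => ?_⟩⟩
  have l0 : (d₀ : ℤ) < d := (le_max_right _ _).trans_lt l
  obtain ⟨m, rfl⟩ := Int.eq_ofNat_of_zero_le ((Int.natCast_nonneg d₀).trans l0.le)
  obtain ⟨S, K, _, _, Λ, Λ', s, f, p, x, y, n⟩ := c F m a b ((le_max_left _ _).trans_lt l) e
  exact n (h m (by exact_mod_cast l0.le) S s K f p Λ Λ' x y)

end Vale.Agent.P287D.Nc
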