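import Vale.Agent.P287D.Nc.Typ
import Vale.Agent.P287D.Nc.Top2
import Vale.Agent.P287D.Nc.Gpb2
import Vale.Agent.P287D.Nc.Pla
import Vale.Agent.P287D.Nc.Bij
import Vale.Agent.P287D.Nc.Rul
import Vale.Agent.P287D.Nc.Inv
import Vale.Agent.P287D.Nc.Res
import Vale.Agent.P287D.Tw.Map
import Vale.Agent.P287D.Tw.Mapp
import Vale.Agent.P287D.Br.Gp
import Vale.Agent.P287D.Fs.Pgr

/-!
# P287D, the net count: assembly
-/

namespace Vale.Agent.P287D.Nc

/-- **The net count.** -/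
theorem net : NET :=
  net_of ptx gpd gpb' P287D.Tw.map P287D.Tw.mapp (bij_of ptx) (pla_of Br.gp0 Br.dim)
    (plb_of Br.dim ptx) (typ_of (rul_of Br.dim ptx)) (inv_of P287D.Tw.map gpb' Br.dim)
    (res_of P287D.Tw.map ptx Br.dim)

/-- The count from the three rows about b-divisors. -/
theorem cnt_net (hO : ONB) (hF : F1.FAN) (hK : K3E) : CNT' :=
  cnt_of' Br.gp0 Br.dim gpd hO net hF hK Fs.pgr

end Vale.Agent.P287D.Nc
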