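import Vale.Agent.P287D.Nc.St
import Vale.Agent.P287Q.Top.Fin

/-!
# P287D, the net count: the pieces of two towers
-/

noncomputable section

namespace Vale.Agent.P287D.Nc

open Set Function Module P291Z P269 P287Q P287Q.Zc P287Q.Top

theorem phi_eq {n r : ℕ} {Y : Var (n + 1)} (c : Ctr Y) (hd : c.m + r + 1 = n + 1) :
    phi c = c.exPhi hd := by
  obtain rfl : r = n - c.m := by omega
  rfl

theorem two_of_ne {Y : Var 4} (c : Ctr Y) (h : c.Z.Hg 2 0 ≠ ⊥) : c.m = 2 := by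
  obtain ⟨r, hd⟩ : ∃ r, c.m + r + 1 = 4 := ⟨3 - c.m, by have := c.cod; omega⟩
  have hr : 0 < r := by have := c.cod; omega
  obtain rfl := (c.blT hd).eq_one_of_ne_bot (c.blH hd hgp) rfl hr
    fun e => h ((c.Z.T_nat 2 0).symm.trans e)
  omega

theorem phi_inj {n : ℕ} {Y : Var (n + 1)} (c : Ctr Y) : Injective (phi c) :=
  c.phi_inj _ (by have := c.cod; omega)

theorem int_phi {n : ℕ} {Y : Var (n + 1)} (c : Ctr Y) (h : c.m + 1 = n) (x y : H c.Z.X) :
    c.bl.int (phi c x * phi c y) = -c.Z.int (x * y) := by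
  rw [phi_eq c (r := 1) (by omega)]
  exact c.int_phi _ x y

theorem hg31 {Y : Var 4} (c : Ctr Y) :
    c.bl.Hg 3 1 = c.down.im ⊔ (c.Z.Hg 2 0).map (phi c) := c.Hg31 _ hgp

theorem uni_mid {m : ℕ} (Z : Var m) (k : ℤ) (h : m = 2 * k) (hk : Even (2 * k)) :
    Uni (frm Z) (H.deg Z.X (2 * k)) (Lk Z.X (2 * k)) :=
  h ▸ (pz_qm Z.qm).mid (by change Even (m : ℤ); rwa [h])

theorem uniZ {m : ℕ} (Z : Var m) (h : m = 2) : Uni (frm Z) (H.deg Z.X 2) (Lk Z.X 2) :=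
  uni_mid Z 1 (by omega) ⟨1, rfl⟩

theorem uni4 (Z : Var 4) : Uni (frm Z) (H.deg Z.X 4) (Lk Z.X 4) := uni_mid Z 2 rfl ⟨2, rfl⟩

section lat

variable {M M' : Type} [AddCommGroup M] [Module ℂ M] [AddCommGroup M'] [Module ℂ M']
  {J : LinearMap.BilinForm ℂ M} {J' : LinearMap.BilinForm ℂ M'} {U : Submodule ℂ M}
  {L : Submodule ℤ M} {L' : Submodule ℤ M'} {σ : M} {σ' : M'} {d : ℕ}

theorem TD.map (h : TD d J L σ) (f : trn J L σ ≃ₗ[ℤ] trn J' L' σ')
    (e : ∀ s t, J' (f s).1 (f t).1 = -J s.1 t.1) : TD d J' L' σ' := by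
  obtain ⟨b, G, h1, h2⟩ := h
  refine ⟨b.map f, -G, fun i j => ?_, ?_⟩
  · rw [Basis.map_apply, Basis.map_apply, e, ← h1]
    simp
  · rw [Matrix.det_neg, Int.natAbs_mul, h2]
    simp

theorem trn_ng : trn (-J) L σ = trn J L σ := by
  simp only [trn, alg, LinearMap.neg_apply, LinearMap.ker_neg]

theorem TD.ng (h : TD d J L σ) : TD d (-J) L σ := by
  have k : ∀ T : Submodule ℤ M, T = trn J L σ → ∃ f : trn J L σ ≃ₗ[ℤ] T, ∀ s, (f s).1 = s.1 := by
    rintro _ rfl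
    exact ⟨.refl _ _, fun _ => rfl⟩
  obtain ⟨f, hf⟩ := k _ trn_ng
  exact h.map f fun s t => by rw [hf, hf]; rfl

theorem uni_ng (h : Uni J U L) : Uni (-J) U L :=
  ⟨h.span, fun x a y b => congrArg Neg.neg (h.symm x a y b), fun x a y b => neg_mem (h.int x a y b),
    fun x a k => h.nondeg x a fun y b => neg_eq_zero.1 (k y b), fun φ k =>
      let ⟨x, a, b⟩ := h.rep φ k
      ⟨-x, neg_mem a, fun y c => by simpa using b y c⟩⟩

end lat

variable {V W : Var 4}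

theorem Ort.comp {Y : Var 4} {f : P287Q.Ext V W} (g : P287Q.Ext W Y) {y} (h : f.Ort y) :
    (f.comp g).Ort y := fun x => by
  rw [P287Q.Ext.pb_comp]
  exact h _

theorem Ort.up {Y : Var 4} {f : P287Q.Ext V W} (hf : f.Bir) {g : P287Q.Ext W Y} {y}
    (h : g.Ort y) : (f.comp g).Ort (f.pb y) := fun x => by
  rw [P287Q.Ext.pb_comp, ← map_mul, hf.int_pb]
  exact h x

theorem Ort.zero {f : P287Q.Ext V W} (hf : f.Bir) {y} (h : f.Ort y) (k : y ∈ f.im) : y = 0 := by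
  obtain ⟨x, -, rfl⟩ := k
  have : x = 0 := W.pd fun z => by
    rw [← hf.int_pb, map_mul]
    exact h z
  rw [this, map_zero]

theorem im_le_comp {Y : Var 4} (f : P287Q.Ext V W) (g : P287Q.Ext W Y) : (f.comp g).im ≤ f.im := by
  rw [im_comp]
  exact Submodule.map_mono g.im_le

namespace Stp

variable (s s' : Stp W)

/-- the map from the cohomology of the centre -/
def ψ : H s.c.Z.X →ₗ[ℂ] H W.X := s.f.pb.toLinearMap ∘ₗ phi s.c

/-- the piece of the step -/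
def ln : Submodule ℂ (H W.X) := (s.c.Z.Hg 2 0).map s.ψ

theorem ψ_up (g : P287Q.Ext V W) (x) : (s.up g).ψ x = g.pb (s.ψ x) := s.f.pb_comp g _

theorem ln_up (g : P287Q.Ext V W) : (s.up g).ln = s.ln.map g.pb.toLinearMap := by
  rw [ln, ln, ← Submodule.map_comp]
  exact congrArg (Submodule.map · _) (LinearMap.ext (s.ψ_up g))

theorem ln_le : s.ln ≤ s.f.im := by
  rintro _ ⟨x, hx, rfl⟩
  exact ⟨_, (hg31 s.c).ge (Submodule.mem_sup_right ⟨x, hx, rfl⟩), rfl⟩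

theorem im_eq : s.f.im = (s.f.comp s.c.down).im ⊔ s.ln := by
  rw [im_comp, ln, ψ, Submodule.map_comp, ← Submodule.map_sup, ← hg31]
  rfl

/-- the step is good -/
structure Gd : Prop where
  bir : s.f.Bir
  prs : Nonempty (Prs s.Y)

/-- `s'` comes before or after `s` -/
def Sep : Prop := s'.ln ≤ (s.f.comp s.c.down).im ∨ ∀ y ∈ s'.ln, s.f.Ort y

variable {s s'}

theorem Gd.up (h : s.Gd) {g : P287Q.Ext V W} (hg : g.Bir) : (s.up g).Gd := ⟨hg.comp h.bir, h.prs⟩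

theorem Gd.bir' (h : s.Gd) : (s.f.comp s.c.down).Bir := h.bir.comp s.c.down_bir

theorem Gd.ort (h : s.Gd) : ∀ y ∈ s.ln, (s.f.comp s.c.down).Ort y := by
  rintro _ ⟨x, -, rfl⟩
  exact Ort.up h.bir (s.c.phi_ort _ (by have := s.c.cod; omega) x)

theorem Gd.inj (h : s.Gd) : Injective s.ψ := h.bir.pb_inj.comp (phi_inj s.c)

theorem Gd.int (h : s.Gd) (e : s.c.m = 2) (x y) : W.int (s.ψ x * s.ψ y) = -s.c.Z.int (x * y) :=
  ((congrArg _ (map_mul s.f.pb _ _).symm).trans (h.bir.int_pb _)).trans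
    (int_phi s.c (by omega) x y)

theorem lam {x} (h : x ∈ Lam s.c.Z.X) : s.ψ x ∈ Lam W.X := Lam.map s.f.q (s.c.phi_Lam _ h)

theorem Sep.up (h : s.Sep s') {g : P287Q.Ext V W} (hg : g.Bir) : (s.up g).Sep (s'.up g) := by
  rw [Sep, ln_up]
  refine h.imp (fun k => (Submodule.map_mono k).trans (im_comp g (s.f.comp s.c.down)).ge) fun k => ?_
  rintro _ ⟨y, hy, rfl⟩
  exact Ort.up hg (k y hy)

theorem Sep.zero (h : s.Sep s') (k : s.Gd) {y} (a : y ∈ s.ln) (b : y ∈ s'.ln) : y = 0 := by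
  rcases h with e | e
  · exact Ort.zero k.bir' (k.ort y a) (e b)
  · exact Ort.zero k.bir (e y b) (s.ln_le a)

theorem prj_aux {M : Type} [AddCommGroup M] [Module ℂ M] {N I I' L : Submodule ℂ M}
    {A : Subalgebra ℂ (End ℂ N)} {e e' : End ℂ N} (h : e ∈ A) (h' : e' ∈ A) (s : I' = I ⊔ L)
    (le : I' ≤ N) (r : ∀ y, (e' y).1 ∈ I') (i : ∀ y : N, y.1 ∈ I → e y = y)
    (i' : ∀ y : N, y.1 ∈ I' → e' y = y) (o : ∀ y : N, y.1 ∈ L → e y = 0) :
    ∃ ε ∈ A, (∀ y, (ε y).1 ∈ L) ∧ (∀ y : N, y.1 ∈ L → ε y = y) ∧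
      ∀ y : N, y.1 ∈ I ∨ e' y = 0 → ε y = 0 := by
  subst s
  refine ⟨(1 - e) * e', mul_mem (sub_mem (one_mem _) h) h', fun y => ?_, fun y hy => ?_,
    fun y k => ?_⟩
  · obtain ⟨a, ha, u, hu, k⟩ := Submodule.mem_sup.1 (r y)
    have k' : e' y = ⟨a, le (Submodule.mem_sup_left ha)⟩ + ⟨u, le (Submodule.mem_sup_right hu)⟩ :=
      Subtype.ext k.symm
    change (e' y - e (e' y)).1 ∈ _
    rw [k', map_add, i _ ha, o _ hu]
    simpa using hu
  · change e' y - e (e' y) = y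
    rw [i' y (Submodule.mem_sup_right hy), o y hy, sub_zero]
  · change e' y - e (e' y) = 0
    rcases k with k | k
    · rw [i' y (Submodule.mem_sup_left k), i y k, sub_self]
    · rw [k, map_zero, sub_self]

theorem Gd.prj (h : s.Gd) (ok : W.Ok) : ∃ ε ∈ W.alg, (∀ y, (ε y).1 ∈ s.ln) ∧
    (∀ y : W.Hg 3 1, y.1 ∈ s.ln → ε y = y) ∧
    ∀ s', s.Sep s' → ∀ y : W.Hg 3 1, y.1 ∈ s'.ln → ε y = 0 := by
  obtain ⟨e, he⟩ := As.thmA' _ _ _ h.bir' ok h.prs
  obtain ⟨e', he'⟩ := As.thmA' _ _ _ h.bir ok (blprs _ _ s.c h.prs)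
  obtain ⟨ε, a, b, c, k⟩ := prj_aux he.mem he'.mem s.im_eq s.f.im_le he'.rng he.id he'.id
    fun y hy => he.ort y (h.ort _ hy)
  exact ⟨ε, a, b, c, fun s' z y hy => k y (z.imp (fun z => z hy) fun z => he'.ort y (z _ hy))⟩

end Stp

namespace Tw

variable {n : ℕ}

theorem dn_bir {Y₀ W : Var n} (t : Tw Y₀ W) : t.dn.Bir := by
  induction t with
  | refl => exact P287Q.Ext.bir_refl _
  | step t c ih => exact c.down_bir.comp ih

theorem st_bir {Y₀ W : Var n} (t : Tw Y₀ W) (s) : (t.st s).f.Bir := by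
  induction t with
  | refl => exact s.elim
  | step t c ih =>
    rcases s with _ | s
    exacts [P287Q.Ext.bir_refl _, c.down_bir.comp (ih s)]

variable {Y₀ W : Var 4}

theorem prs (h : Nonempty (Prs Y₀)) (t : Tw Y₀ W) : Nonempty (Prs W) := by
  induction t with
  | refl => exact h
  | step t c ih => exact blprs _ _ c ih

theorem gd (h : Nonempty (Prs Y₀)) (t : Tw Y₀ W) (s) : (t.st s).Gd := by
  induction t with
  | refl => exact s.elim
  | step t c ih =>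
    rcases s with _ | s
    exacts [⟨P287Q.Ext.bir_refl _, t.prs h⟩, (ih s).up c.down_bir]

theorem ort0 (c : Ctr W) : ∀ y ∈ Stp.ln ⟨W, c, .refl _⟩, c.down.Ort y := by
  rintro _ ⟨x, -, rfl⟩
  change c.down.Ort ((P287Q.Ext.refl _).pb (phi c x))
  rw [P287Q.Ext.pb_id]
  exact c.phi_ort _ (by have := c.cod; omega) x

theorem ort (t : Tw Y₀ W) (s) : ∀ y ∈ (t.st s).ln, t.dn.Ort y := by
  induction t with
  | refl => exact s.elim
  | step t c ih =>
    intro y hy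
    rcases s with _ | s
    · exact Ort.comp t.dn (ort0 c y hy)
    · obtain ⟨x, hx, rfl⟩ := ((t.st s).ln_up c.down).le hy
      exact Ort.up c.down_bir (ih s x hx)

theorem sep (t : Tw Y₀ W) (s s') (e : s ≠ s') : (t.st s).Sep (t.st s') := by
  induction t with
  | refl => exact s.elim
  | step t c ih =>
    rcases s with _ | s <;> rcases s' with _ | s'
    · exact (e rfl).elim
    · exact .inl (((t.st s').ln_up c.down).trans_le
        (Submodule.map_mono ((t.st s').ln_le.trans (P287Q.Ext.im_le _))))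
    · exact .inr fun y hy => Ort.comp (t.st s).f (ort0 c y hy)
    · exact (ih s s' fun k => e (congrArg some k)).up c.down_bir

theorem ok (h : Y₀.Ok) (t : Tw Y₀ W) : W.Ok := by
  induction t with
  | refl => exact h
  | step t c ih => exact ⟨(blcoh _ c).1 ih.h20, blprs _ _ c ih.prs⟩

theorem card_opt {A : Type} [Finite A] (p : Option A → Prop) [Decidable (p none)] :
    Nat.card {a // p (some a)} + (if p none then 1 else 0) ≤ Nat.card {o // p o} := by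
  split_ifs with k
  · rw [← Finite.card_option]
    refine Nat.card_le_card_of_injective (fun o => o.elim ⟨none, k⟩ fun s => ⟨some s.1, s.2⟩) ?_
    rintro (_ | a) (_ | b) e <;> simp_all [Subtype.ext_iff]
  · exact Nat.card_le_card_of_injective (fun s => ⟨some s.1, s.2⟩) fun a b e =>
      Subtype.ext (Option.some.inj (congrArg Subtype.val e))

theorem rank (h : Y₀.Ok) (h₁ : Y₀.Hg 3 1 = ⊥) (t : Tw Y₀ W) :
    finrank ℂ W.alg ≤ Nat.card {s // (t.st s).c.Z.Hg 2 0 ≠ ⊥} := by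
  classical
  induction t with
  | refl =>
    have : Subsingleton (Y₀.Hg 3 1) := h₁ ▸ inferInstance
    exact (finrank_zero_of_subsingleton).trans_le (Nat.zero_le _)
  | step t c ih =>
    have := t.fin
    have hb := thmB _ c (t.ok h) ((t.step c).ok h)
    refine hb.trans (le_trans (add_le_add ih ?_)
      (card_opt fun s : Option t.St => ((t.step c).st s).c.Z.Hg 2 0 ≠ ⊥))
    by_cases k : c.Z.Hg 2 0 = ⊥
    · rw [if_pos (by rw [hg31, k, Submodule.map_bot, sup_bot_eq])]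
      exact Nat.zero_le _
    · refine le_trans ?_ (if_pos k).ge
      split_ifs <;> omega

end Tw

/-- The class `τ` comes from a lattice of the type. -/
def Src (d : ℕ) (V : Var 4) (τ : H V.X) : Prop :=
  ∃ (M : Type) (_ : AddCommGroup M) (_ : Module ℂ M) (J : LinearMap.BilinForm ℂ M)
    (U : Submodule ℂ M) (L : Submodule ℤ M) (σ : M) (ψ : M →ₗ[ℂ] H V.X), Uni J U L ∧ σ ∈ U ∧
    TD d J L σ ∧ (∀ x ∈ L, ψ x ∈ Lam V.X) ∧ ψ σ = τ ∧ ∀ x ∈ U, V.int (ψ x * τ) = J σ x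

theorem Src.kt {d : ℕ} {τ : H V.X} (h : Src d V τ) (h0 : τ ≠ 0) {s : Stp V} (k : s.Gd)
    (e : s.ln = ℂ ∙ τ) : KT d s.c.Z := by
  obtain ⟨M, _, _, J, U, L, σ, ψ, h1, h2, h3, h4, h5, h6⟩ := h
  obtain ⟨w, hw, e1⟩ := e.ge (Submodule.mem_span_singleton_self τ)
  have w0 : w ≠ 0 := fun a => h0 (by rw [← e1, a, map_zero])
  have m2 := two_of_ne s.c fun a => w0 ((Submodule.eq_bot_iff _).1 a w hw)
  refine ⟨m2, w, w0, Submodule.map_injective_of_injective k.inj ?_, ?_⟩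
  · rw [Submodule.map_span, image_singleton, e1]
    exact e
  obtain ⟨f, hf⟩ := trn_iso _ _ J (frm s.c.Z) U _ L _ σ w ((frm V).compl₁₂ ψ s.ψ) h1
    (uniZ _ m2) h2 (s.c.Z.Hg_deg hw)
    (fun x a y b => (pz_qm V.qm).int _ (mul_mem (h4 x a) (Stp.lam b.1)))
    (fun y _ => by
      change V.int (ψ σ * s.ψ y) = _
      rw [h5, ← e1]
      exact k.int m2 w y)
    fun x a => by
      change V.int (ψ x * s.ψ w) = _
      rw [e1, h6 x a]
  exact h3.map f hf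

theorem KT.src {d : ℕ} {s : Stp V} (h : KT d s.c.Z) (k : s.Gd) :
    ∃ τ, τ ≠ 0 ∧ s.ln = ℂ ∙ τ ∧ Src d V τ := by
  obtain ⟨m2, w, w0, e, h⟩ := h
  have u := uniZ s.c.Z m2
  have hw : w ∈ H.deg _ 2 := s.c.Z.Hg_deg (e.ge (Submodule.mem_span_singleton_self w))
  refine ⟨s.ψ w, fun a => w0 (k.inj (a.trans (map_zero _).symm)), ?_, _, _, _, _, _, _, w, s.ψ,
    uni_ng u, hw, h.ng, fun x a => Stp.lam a.1, rfl, fun x a => ?_⟩
  · rw [Stp.ln, e, Submodule.map_span, image_singleton]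
  · rw [k.int m2]
    exact congrArg Neg.neg (u.symm x a w hw)

/-- **The pieces.** -/
theorem core : CORE := by
  intro d X P W U Γ tX tP q g σ ok h31 hq hq' hg pX h0 hσ hT
  obtain ⟨okΓ, -, e2⟩ := iso_of hgv isoPrs _ _ q hq (tP.ok ok)
  have := Γ.fin
  have := tP.fin
  have gP := fun s => (tP.gd ok.prs s).up hq'
  have gX := fun s => (tX.gd pX s).up hg
  choose ε m1 m2 m3 m4 using fun s => (gP s).prj okΓ
  have := Fintype.ofFinite {s // (tP.st s).c.Z.Hg 2 0 ≠ ⊥}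
  have pk : ∀ τ : H Γ.X, τ ≠ 0 → ∀ hτ : τ ∈ Γ.Hg 3 1, ∀ e ∈ Γ.alg, e ⟨τ, hτ⟩ = ⟨τ, hτ⟩ →
      (∀ y, (e y).1 ∈ ℂ ∙ τ) → ∃ i, ((tP.st i).up q).ln = ℂ ∙ τ := fun τ a hτ e b c k =>
    let ⟨i, hi⟩ := pick (ι := {s // (tP.st s).c.Z.Hg 2 0 ≠ ⊥})
      (U := fun i => ((tP.st i.1).up q).ln) (ε := fun i => ε i.1)
      (fun i z => i.2 (Submodule.map_injective_of_injective (gP i.1).inj
        (z.trans (Submodule.map_bot _).symm)))
      (fun _ => (Stp.ln_le _).trans (P287Q.Ext.im_le _)) (fun i => m1 i.1) (fun i => m3 i.1)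
      (fun i j z => m4 i.1 _ ((tP.sep _ _ fun z' => z (Subtype.ext z')).up hq'))
      ((e2.trans (tP.rank ok h31)).trans_eq Nat.card_eq_fintype_card) b (σ := ⟨τ, hτ⟩) a c k
    ⟨i.1, hi⟩
  have hp : (g.comp tX.dn).Bir := hg.comp tX.dn_bir
  have e3 : (g.comp tX.dn).im = ℂ ∙ (g.comp tX.dn).pb σ := by
    rw [P287Q.Ext.im, hσ, Submodule.map_span, image_singleton]; rfl
  let l : Option {s : tX.St // KT d (tX.st s).c.Z} → Submodule ℂ (H Γ.X) :=
    fun o => o.elim (g.comp tX.dn).im fun s => ((tX.st s.1).up g).ln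
  have key : ∀ o, ∃ τ i, τ ≠ 0 ∧ l o = ℂ ∙ τ ∧ Src d Γ τ ∧ l o ≤ g.im ∧
      ((tP.st i).up q).ln = ℂ ∙ τ := by
    rintro (_ | s)
    · obtain ⟨e, he⟩ := As.thmA' _ _ _ hp okΓ pX
      have a : (g.comp tX.dn).pb σ ≠ 0 := fun z => h0 (hp.pb_inj (z.trans (map_zero _).symm))
      have b := e3.ge (Submodule.mem_span_singleton_self _)
      have hs : σ ∈ H.deg _ 4 := X.Hg_deg (hσ.ge (Submodule.mem_span_singleton_self σ))
      obtain ⟨i, hi⟩ := pk _ a (P287Q.Ext.im_le _ b) e he.mem (he.id _ b) fun y => e3.le (he.rng y)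
      refine ⟨_, i, a, e3, ⟨_, _, _, _, _, _, σ, (g.comp tX.dn).pb.toLinearMap, uni4 X, hs, hT,
        fun x z => Lam.map _ z.1, rfl, fun x z => ?_⟩, im_le_comp _ _, hi⟩
      exact ((congrArg _ (map_mul _ _ _).symm).trans (hp.int_pb _)).trans ((uni4 X).symm x z σ hs)
    · obtain ⟨τ, a, b, c⟩ := KT.src (s := (tX.st s.1).up g) s.2 (gX _)
      obtain ⟨e, k1, k2, k3, -⟩ := (gX s.1).prj okΓ
      have z := b.ge (Submodule.mem_span_singleton_self _)
      obtain ⟨i, hi⟩ := pk _ a (P287Q.Ext.im_le _ (Stp.ln_le _ z)) e k1 (k3 _ z) fun y => b.le (k2 y)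
      exact ⟨τ, i, a, b, c, (Stp.ln_le _).trans (im_le_comp _ _), hi⟩
  choose τ i k1 k2 k3 k4 k5 using key
  have k6 : ∀ o, τ o ∈ l o := fun o => (k2 o).ge (Submodule.mem_span_singleton_self _)
  have k7 : ∀ s y, y ∈ l none → y ∈ l (some s) → y = 0 := fun s y a b => by
    obtain ⟨x, hx, rfl⟩ := ((tX.st s.1).ln_up g).le b
    exact Ort.zero hp (Ort.up hg (tX.ort _ x hx)) a
  refine ⟨i, fun o o' e => by_contra fun z => k1 o ?_, fun o => ⟨(k3 o).kt (k1 o) (gP _) (k5 o),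
    fun β hβ => k4 o (((k5 o).trans (k2 o).symm).le ⟨β, hβ, rfl⟩)⟩⟩
  have a : τ o ∈ l o' := by
    rw [k2, ← k5, ← e, k5]
    exact Submodule.mem_span_singleton_self _
  rcases o with _ | s <;> rcases o' with _ | s'
  · exact (z rfl).elim
  · exact k7 _ _ (k6 _) a
  · exact k7 _ _ a (k6 _)
  · exact ((tX.sep _ _ fun e => z (congrArg _ (Subtype.ext e))).up hg).zero (gX _) (k6 (some s)) a

end Vale.Agent.P287D.Nc
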