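import Vale.Agent.P287D.Nc.Gpd

/-!
# P287D: the row GPB
-/

set_option linter.unusedSectionVars false

namespace Vale.Agent.P287D.Nc

open Set Function MvPolynomial P287Q

namespace Sp

/-- Finitely many functions are proportional to forms of one degree. -/
theorem den {J R ι K : Type} [Fintype J] [Fintype R] [DecidableEq R] [Fintype ι] [Field K]
    [Algebra ℂ K] {π : J → R} {ζ : J → K} (h : fl π ζ = ⊤) {s : Sel π} (hs : ∀ r, ζ (s.1 r) = 1)
    (u : ι → K) : ∃ (δ : R → ℤ) (P : ι → MvPolynomial J ℂ) (c : K), 0 ≤ δ ∧ c ≠ 0 ∧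
      ∀ i, WHom (bw π) δ (P i) ∧ aeval ζ (P i) = c * u i := by
  classical
  have k : ∀ f : K, ∃ p q : MvPolynomial J ℂ, aeval ζ q ≠ 0 ∧ aeval ζ p = aeval ζ q * f :=
    fun f => by
      obtain ⟨p, q, e⟩ := Pa.frac h f
      by_cases a : aeval ζ q = 0
      · exact ⟨0, 1, by simp, by simp [e, a]⟩
      · exact ⟨p, q, a, by rw [e, mul_div_cancel₀ _ a]⟩
  choose p q a b using fun i => k (u i)
  choose N g c d using fun i => exists_hom (π := π) id (fun j => s.1 (π j))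
    (fun j => (s.2 _).symm) (p i * ∏ k ∈ Finset.univ.erase i, q k)
  have hD := IsWeightedHomogeneous.prod Finset.univ (fun j => (X (s.1 (π j)) : MvPolynomial J ℂ)) _
    fun i _ => isWeightedHomogeneous_X ℂ (bw π) _
  refine ⟨(∑ i, N i) • ∑ j, bw π (s.1 (π j)), fun i => g i * (∏ j, X (s.1 (π j))) ^
    ∑ k ∈ Finset.univ.erase i, N k, ∏ i, aeval ζ (q i), ?_,
    Finset.prod_ne_zero_iff.2 fun i _ => a i, fun i => ⟨?_, ?_⟩⟩
  · exact nsmul_nonneg (Finset.sum_nonneg fun j _ => Pi.single_nonneg.2 zero_le_one) _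
  · rw [← Finset.add_sum_erase _ _ (Finset.mem_univ i), add_smul]
    exact (c i).mul (whom_iff.2 (hD.pow _))
  · rw [← Finset.mul_prod_erase _ _ (Finset.mem_univ i), map_mul, d i K ζ (by simp [hs])]
    simp [hs, b, mul_right_comm]

theorem eval_aeval {J J' : Type} (x : J → ℂ) (S : J' → MvPolynomial J ℂ) (g : MvPolynomial J' ℂ) :
    eval x (aeval S g) = eval (fun j => eval x (S j)) g := by
  rw [← aeval_eq_eval, ← aeval_eq_eval, comp_aeval_apply]

end Sp

open Sp in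
/-- **GPB** -/
theorem gpb : GPB := fun n V W f K _ _ ξ₀ h₀ hf g₀ => by
  obtain ⟨ξ, σ, e, h3⟩ := up f g₀.nz
  have h := e.gp h₀
  have g := (e.comp f).gp g₀
  obtain ⟨D, P, c, d0, c0, hP⟩ := den g.top h3 ξ
  obtain ⟨δ, S, t, a1, a2, a3, a4⟩ : ∃ (δ : V.R → W.R → ℤ) (S : V.J → MvPolynomial W.J ℂ)
      (t : V.R → K), (∀ r, 0 ≤ δ r) ∧ (∀ r, t r ≠ 0) ∧ (∀ j, S (f.iJ j) = X j) ∧
      ∀ j, WHom (bw W.π) (δ (V.π j)) (S j) ∧ aeval (ξ ∘ f.iJ) (S j) = t (V.π j) * ξ j := by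
    have k : ∀ r, (∃ a, f.iR a = r) ∨ ¬ ∃ a, f.iR a = r := fun r => em _
    refine ⟨extend f.iR (Pi.single · 1) fun _ => D, extend f.iJ X P, extend f.iR 1 fun _ => c,
      fun r => ?_, fun r => ?_, f.injJ.extend_apply _ _, fun j => ?_⟩
    · obtain ⟨r, rfl⟩ | k := k r
      · exact f.injR.extend_apply _ _ r ▸ Pi.single_nonneg.2 zero_le_one
      · exact extend_apply' _ _ _ k ▸ d0
    · obtain ⟨r, rfl⟩ | k := k r
      · exact f.injR.extend_apply _ _ r ▸ one_ne_zero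
      · exact extend_apply' _ _ _ k ▸ c0
    obtain k | k := k (V.π j)
    · obtain ⟨j, rfl⟩ := hf j k
      simp only [f.blk, f.injR.extend_apply, f.injJ.extend_apply]
      exact ⟨whom_X _ j, by simp⟩
    · rw [extend_apply' _ _ _ k, extend_apply' _ _ _ k,
        extend_apply' _ _ _ fun ⟨a, b⟩ => k ⟨_, by rw [← b, f.blk]⟩]
      exact hP j
  have p := Sim.pt ⟨t, a2, fun j => (a4 j).2⟩ h.toPt
  obtain ⟨τ, hτ⟩ := Pa.sel p.nz
  obtain ⟨Q, hG, q1⟩ : ∃ Q, WHom (bw W.π) (∑ r, δ (V.π (τ.1 r))) Q ∧ Q = ∏ r, S (τ.1 r) :=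
    ⟨_, whom_iff.2 (IsWeightedHomogeneous.prod _ _ _ fun r _ => whom_iff.1 (a4 _).1), rfl⟩
  have d1 : 0 ≤ ∑ r, δ (V.π (τ.1 r)) := Finset.sum_nonneg fun r _ => a1 _
  have hs := fun j => frm_eval (a4 j).1 (a1 _)
  have nz : ∀ x, eval x Q ≠ 0 → (fun j => eval x (S j)) ∈ Ust V.π := fun x a r => by
    rw [q1, map_prod] at a
    exact ⟨_, τ.2 r, Finset.prod_ne_zero_iff.1 a r (Finset.mem_univ r)⟩
  obtain ⟨k, δ', G, hc, -⟩ := eqs V
  have a5 : ∀ x, (fun j => eval x (S j)) ∘ f.iJ = x := fun x => by simp only [comp_def, a3, eval_X]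
  refine ⟨_, _, fun r r' => (δ r r').toNat, fun x j => eval x (S j), frm_eval hG d1, hs, ?_, ?_⟩
  swap
  · by_contra! k
    have := van' g.toPt k
    rw [q1, map_prod] at this
    exact Finset.prod_ne_zero_iff.2 (fun r _ => hτ r) this
  refine Sct.of_frm (d := fun r r' => (δ r r').toNat) hs (fun x hx => ?_) (fun x _ => a5 x)
    fun w hw hx => ?_
  · refine (hc.zero _ (nz x hx.2)).2 (funext fun l => ?_)
    have b := g.gen _ _ (whom_aeval (fun j => (a4 j).1) (hc.hom l)) (by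
      rw [comp_aeval_apply]
      exact p.van _ _ (hc.hom l) fun z hz => congrFun ((hc.zero z (hc.sub hz)).1 hz) l) x hx.1
    rwa [eval_aeval] at b
  · obtain ⟨u, u0, e⟩ := Pa.sim_of (nz _ hx.2) (V.pv.sub hw) fun j j' a => by
      have b1 := (whom_rename f.blk (a4 j).1).mul (whom_X _ j')
      have b2 := (whom_rename f.blk (a4 j').1).mul (whom_X _ j)
      rw [← a, show bw V.π j = bw V.π j' from congrArg (Pi.single · 1) a] at b2
      rw [← sub_eq_zero]
      simpa [eval_rename] using h.gen _ _ (whom_iff.2 ((whom_iff.1 b1).sub (whom_iff.1 b2))) (by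
        simp only [map_sub, map_mul, aeval_rename, aeval_X, (a4 _).2, a]
        ring) w hw
    exact ⟨u, unit_iff.2 u0, funext e⟩

end Vale.Agent.P287D.Nc
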