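import Vale.Agent.P287D.Nc.St
import Vale.Agent.P287Q.Top.HG
import Vale.Agent.P287Q.Hb.HRg

/-!
# P287D: two surfaces under one threefold have the same transcendental lattice
-/

namespace Vale.Agent.P287D.Nc

open Set Function Module P291Z P269 P269.Coh P287Q P287Q.Hb P287Q.Zc

section lat

variable {M M' : Type} [AddCommGroup M] [Module ℂ M] [AddCommGroup M'] [Module ℂ M']
  {J : LinearMap.BilinForm ℂ M} {J' : LinearMap.BilinForm ℂ M'} {U : Submodule ℂ M}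
  {U' : Submodule ℂ M'} {L : Submodule ℤ M} {L' : Submodule ℤ M'} {σ : M} {σ' : M'} {d : ℕ}

theorem uni_neg_h4 (h : Uni J U L) : Uni (-J) U L :=
  ⟨h.span, fun x a y b => congrArg Neg.neg (h.symm x a y b),
    fun x a y b => ZZ.neg_mem (h.int x a y b),
    fun x a k => h.nondeg x a fun y b => neg_eq_zero.1 (k y b), fun φ k =>
      let ⟨x, a, b⟩ := h.rep φ k
      ⟨-x, L.neg_mem a, fun y c => by simpa using b y c⟩⟩

theorem trn_neg_h4 : trn (-J) L σ = trn J L σ := by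
  ext x
  simp [Trn.mem_trn]

theorem TD.of_iso {ε : ℤ} (hε : ε = 1 ∨ ε = -1) (f : trn J L σ ≃ₗ[ℤ] trn J' L' σ')
    (hf : ∀ s t, J' (f s).1 (f t).1 = ε * J s.1 t.1) (h : TD d J' L' σ') : TD d J L σ := by
  obtain ⟨b, G, h1, h2⟩ := h
  refine ⟨b.map f.symm, ε • G, fun i j => ?_, ?_⟩
  · have := hf (f.symm (b i)) (f.symm (b j))
    rw [f.apply_symm_apply, f.apply_symm_apply, ← h1] at this
    rw [Matrix.smul_apply, smul_eq_mul, Int.cast_mul, this]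
    rcases hε with rfl | rfl <;> simp
  · rw [Matrix.det_smul, Int.natAbs_mul, h2]
    rcases hε with rfl | rfl <;> simp

theorem TD.neg_h4 (h : TD d J L σ) : TD d (-J) L σ := by
  obtain ⟨b, G, h1, h2⟩ := h
  rw [TD, trn_neg_h4]
  refine ⟨b, -G, fun i j => by simp [h1], ?_⟩
  rw [Matrix.det_neg, Int.natAbs_mul, h2]
  simp

/-- Transport along an integral correspondence which matches the classes up to a sign. -/
theorem TD.of_corr (hU : Uni J U L) (hU' : Uni J' U' L') (hσ : σ ∈ U) (hσ' : σ' ∈ U')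
    (c : M →ₗ[ℂ] M' →ₗ[ℂ] ℂ) (c0 : ∀ x ∈ L, ∀ y ∈ L', c x y ∈ ZZ) {ε : ℤ} (hε : ε = 1 ∨ ε = -1)
    (c1 : ∀ y ∈ U', c σ y = ε * J' σ' y) (c2 : ∀ x ∈ U, c x σ' = J σ x) (h : TD d J' L' σ') :
    TD d J L σ := by
  rcases hε with rfl | rfl
  · obtain ⟨f, hf⟩ := trn_iso _ _ J (-J') U U' L L' σ σ' c hU (uni_neg_h4 hU') hσ hσ' c0
      (fun y hy => by simpa using c1 y hy) c2
    exact h.neg_h4.of_iso (.inr rfl) f fun s t => by simpa using hf s t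
  · obtain ⟨f, hf⟩ := trn_iso _ _ J J' U U' L L' σ σ' c hU hU' hσ hσ' c0
      (fun y hy => by simpa using c1 y hy) c2
    exact h.of_iso (.inr rfl) f fun s t => by simpa using hf s t

end lat

variable {n m : ℕ}

theorem exists_pt (V : Var n) : ∃ y ∈ Lam V.X, V.int y = 1 := by
  have := V.nice
  obtain ⟨x⟩ : Nonempty V.X := inferInstance
  obtain ⟨b, h1, h2⟩ := (oriZ_qm V.qm).gen x
  exact ⟨_, ⟨b, h1.int, h1.cyc, rfl⟩, (Loc.intg_hcls _ h1.cyc).trans h2⟩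

/-- The degree of an integral class on the fibres. -/
theorem exists_deg {G : Var (m + 1)} {Z : Var m} (a : P287Q.Ext G Z) {h : H G.X}
    (hh : h ∈ Lk G.X 2) : ∃ l : ℤ, ∀ x, G.int (a.pb x * h) = l * Z.int x := by
  have h1 := PS.push_deg (X := G.ps) (Y := Z.ps) a.q hh.2
  rw [show (2 : ℤ) + 2 * (Z.ps.n - G.ps.n) = 0 by
    change (2 : ℤ) + 2 * (m - (m + 1 : ℕ)) = 0
    omega] at h1
  obtain ⟨t, ht⟩ := Var.con Z _ h1
  have h2 : ∀ x, G.int (a.pb x * h) = t * Z.int x := fun x => by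
    refine (PS.J_mul_push (X := G.ps) (Y := Z.ps) a.q h x).symm.trans ?_
    rw [ht, mul_smul_comm, mul_one, map_smul]
    rfl
  obtain ⟨y, y1, y2⟩ := exists_pt Z
  obtain ⟨l, hl⟩ := mem_ZZ.1 ((pz_qm G.qm).int _ ((Lam _).mul_mem (Lam.map a.q y1) hh.1))
  refine ⟨l, fun x => ?_⟩
  rw [h2, hl.symm.trans (h2 y), y2, mul_one]

theorem uni2_h4 (Z : Var 2) : Uni (frm Z) (H.deg Z.X 2) (Lk Z.X 2) := (pz_qm Z.qm).mid even_two

/-- **Two surfaces under one threefold.** -/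
theorem kt_of {d : ℕ} {G : Var 3} {Z Z₁ : Var 2} (a : P287Q.Ext G Z) (a₁ : P287Q.Ext G Z₁)
    {h h₁ : H G.X} (hh : h ∈ Lk G.X 2) (hh₁ : h₁ ∈ Lk G.X 2)
    (ha : ∀ x, G.int (a.pb x * h) = Z.int x) (ha₁ : ∀ x, G.int (a₁.pb x * h₁) = Z₁.int x)
    (e : (Z.Hg 2 0).map a.pb.toLinearMap = (Z₁.Hg 2 0).map a₁.pb.toLinearMap) (k : KT d Z₁) :
    KT d Z := by
  obtain ⟨-, w₁, w0, w1, w2⟩ := k
  have inj : ∀ {S : Var 2} (b : P287Q.Ext G S) {g}, (∀ x, G.int (b.pb x * g) = S.int x) →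
      Injective b.pb := fun b g hb => (injective_iff_map_eq_zero _).2 fun x e => by
    refine Var.pd _ fun y => ?_
    rw [← hb, map_mul b.pb, e, zero_mul, zero_mul, map_zero]
  have m1 : w₁ ∈ Z₁.Hg 2 0 := w1 ▸ Submodule.mem_span_singleton_self _
  obtain ⟨w, m0, ew⟩ := e.ge ⟨w₁, m1, rfl⟩
  replace ew : a.pb w = a₁.pb w₁ := ew
  obtain ⟨l, hl⟩ := exists_deg a₁ hh
  obtain ⟨μ, hμ⟩ := exists_deg a hh₁
  have g := hgv _ Z₁
  have t1 : Z₁.T 2 0 = ℂ ∙ w₁ := (Z₁.T_nat 2 0).trans w1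
  have n0 : Z₁.int (Mono.cj w₁ * w₁) ≠ 0 :=
    hg_ne g (t1.ge (Submodule.mem_span_singleton_self _)) w0 (hg_cj g t1.le)
  have ec : a.pb (Mono.cj w * w) = a₁.pb (Mono.cj w₁ * w₁) := by
    rw [map_mul, map_mul, ew, Ext.pb_eq, Ext.pb_eq a₁ (Mono.cj _), ← Mono.cj_map, ← Mono.cj_map]
    exact congrArg (Mono.cj · * _) ew
  have lμ : μ * l = 1 := by
    have k1 := hμ (Mono.cj w * w)
    rw [← ha, ec, ha₁, hl, ← mul_assoc] at k1
    exact_mod_cast (mul_eq_right₀ n0).1 k1.symm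
  refine ⟨rfl, w, fun k => w0 (inj a₁ ha₁ (by rw [← ew, k, map_zero, map_zero])), ?_, ?_⟩
  · refine le_antisymm (fun x hx => ?_) ((Submodule.span_singleton_le_iff_mem _ _).2 m0)
    obtain ⟨y, y1, y2⟩ := e.le ⟨x, hx, rfl⟩
    obtain ⟨t, rfl⟩ := Submodule.mem_span_singleton.1 (w1.le y1)
    refine Submodule.mem_span_singleton.2 ⟨t, inj a ha ?_⟩
    rw [map_smul, ew, ← map_smul]
    exact y2
  refine w2.of_corr (uni2_h4 Z) (uni2_h4 Z₁) (Z.Hg_deg m0) (Z₁.Hg_deg m1)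
    (((LinearMap.mul ℂ _).compl₁₂ a.pb.toLinearMap a₁.pb.toLinearMap).compr₂
      (G.int ∘ₗ LinearMap.mulRight ℂ h)) (fun x hx y hy => (pz_qm G.qm).int _ ((Lam _).mul_mem
        ((Lam _).mul_mem (Lam.map a.q hx.1) (Lam.map a₁.q hy.1)) hh.1))
    (Int.eq_one_or_neg_one_of_mul_eq_one' lμ |>.imp (·.2) (·.2)) (fun y _ => ?_) fun x _ => ?_
  · change G.int (a.pb w * a₁.pb y * h) = _
    rw [ew, ← map_mul, hl]
    rfl
  · change G.int (a.pb x * a₁.pb w₁ * h) = _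
    rw [← ew, ← map_mul, ha]
    exact J_comm (Y := Z.ps) (k := 1) (Z.Hg_deg (p := 2) (q := 0) m0) x

end Vale.Agent.P287D.Nc
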