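import Vale.Agent.P287D.Nc.Bas
import Vale.Agent.P287D.Nc.Core

/-!
# P287D, the net count: the places of a tower and the count
-/

noncomputable section

namespace Vale.Agent.P287D.Nc

open Set Function Module P291Z P269 P287Q P287Q.Zc P287Q.Top

variable {n : ℕ} {K : Type} [Field K] [Algebra ℂ K] {Y₀ W : Var (n + 1)} {η : W.J → K}
  {P Q : Pl K}

/-- `P` is the place of the step -/
def Stp.pc (s : Stp W) (η : W.J → K) (P : Pl K) : Prop := Pc s.c (η ∘ s.f.iJ) P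

section

variable (hX : PTX) (hD : GPD) (hA : PLA) (hB : PLB) (h : Gp W η)

include hD hA h in
theorem Stp.ex {s : Stp W} (b : s.f.Bir) : ∃ P, s.pc η P := hA _ _ _ _ _ (hD _ _ _ _ _ _ h b)

include hX hD hB h in
theorem Stp.pc.pr {s : Stp W} (b : s.f.Bir) (k : s.pc η P) : Pr W.π η P :=
  Pr.mono hX s.f h.toPt (hB _ _ _ _ _ _ (hD _ _ _ _ _ _ h b) k).1

include hD hB h in
theorem Stp.pc.uniq {s : Stp W} (b : s.f.Bir) (k : s.pc η P) (k' : s.pc η Q) : Q = P :=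
  have g := hD _ _ _ _ _ _ h b
  (hB _ _ _ _ _ _ g k).2.2 Q (hB _ _ _ _ _ _ g k').1 (hB _ _ _ _ _ _ g k').2.1

include hX hD hB h in
theorem Tw.npr (t : Tw Y₀ W) (s) (k : (t.st s).pc η P) : ¬ Pr Y₀.π (η ∘ t.dn.iJ) P := by
  induction t with
  | refl => exact s.elim
  | step t c ih =>
    have g := hD _ _ _ _ _ _ h c.down_bir
    rcases s with _ | s
    · exact fun a => (hB _ _ _ _ _ _ h k).2.1 (Pr.mono hX t.dn g.toPt a)
    · exact ih g s k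

include hD hA hB h in
theorem Tw.cov (t : Tw Y₀ W) (a : Pr W.π η P) (b : ¬ Pr Y₀.π (η ∘ t.dn.iJ) P) :
    ∃ s, (t.st s).pc η P := by
  induction t with
  | refl => exact (b a).elim
  | @step Y t c ih =>
    by_cases k : Pr Y.π (η ∘ c.down.iJ) P
    · obtain ⟨s, hs⟩ := ih (hD _ _ _ _ _ _ h c.down_bir) k b
      exact ⟨some s, hs⟩
    · obtain ⟨Q, hQ⟩ := hA _ _ c _ _ h
      obtain rfl := (hB _ _ _ _ _ _ h hQ).2.2 P a k
      exact ⟨none, hQ⟩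

include hX hD hB h in
theorem Tw.inj (t : Tw Y₀ W) (s s') (k : (t.st s).pc η P) (k' : (t.st s').pc η P) : s = s' := by
  induction t with
  | refl => exact s.elim
  | step t c ih =>
    have g := hD _ _ _ _ _ _ h c.down_bir
    rcases s with _ | s <;> rcases s' with _ | s'
    · rfl
    · exact ((hB _ _ _ _ _ _ h k).2.1 (Stp.pc.pr hX hD hB g (t.st_bir s') k')).elim
    · exact ((hB _ _ _ _ _ _ h k').2.1 (Stp.pc.pr hX hD hB g (t.st_bir s) k)).elim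
    · exact congrArg some (ih g s s' k k')

end

theorem pn4 : (Pn 4).Ok ∧ (Pn 4).Hg 3 1 = ⊥ := by
  obtain ⟨h, c, k⟩ := p4
  have e : one h c = Pn 4 := one_eq_Pn (ext fun _ => mem_Ust_unit.symm) h c
  exact (congrArg (fun V : Var 4 => V.Ok ∧ V.Hg 3 1 = ⊥) e).mp k

theorem cnt_lt {α : Type} {w x y s : α → Prop} (hx : ∀ a, x a → w a) (hy : ∀ a, y a → w a)
    (f : {a | w a ∧ ¬ y a ∧ s a}.Finite) (f' : {a | w a ∧ ¬ x a ∧ s a}.Finite)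
    (h : {a | w a ∧ ¬ x a ∧ s a}.ncard < {a | w a ∧ ¬ y a ∧ s a}.ncard) :
    {a | y a ∧ ¬ x a ∧ s a}.ncard < {a | x a ∧ ¬ y a ∧ s a}.ncard := by
  have e := ncard_inter_add_ncard_sdiff_eq_ncard _ {a | x a} f
  have e' := ncard_inter_add_ncard_sdiff_eq_ncard _ {a | y a} f'
  rw [show {a | w a ∧ ¬ y a ∧ s a} ∩ {a | x a} = {a | x a ∧ ¬ y a ∧ s a} from
    ext fun a => ⟨fun k => ⟨k.2, k.1.2⟩, fun k => ⟨⟨hx a k.1, k.2⟩, k.1⟩⟩] at e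
  rw [show {a | w a ∧ ¬ x a ∧ s a} ∩ {a | y a} = {a | y a ∧ ¬ x a ∧ s a} from
    ext fun a => ⟨fun k => ⟨k.2, k.1.2⟩, fun k => ⟨⟨hy a k.1, k.2⟩, k.1⟩⟩,
    show {a | w a ∧ ¬ x a ∧ s a} \ {a | y a} = {a | w a ∧ ¬ y a ∧ s a} \ {a | x a} from
    ext fun a => ⟨fun k => ⟨⟨k.1.1, k.2, k.1.2.2⟩, k.1.2.1⟩,
      fun k => ⟨⟨k.1.1, k.2, k.1.2.2⟩, k.1.2.1⟩⟩] at e'
  omega

/-- **The net count.** -/
theorem net_of (hX : PTX) (hD : GPD) (hG : GPB) (hM : MAP) (hM' : MAPP) (hJ : BIJ) (hA : PLA)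
    (hB : PLB) (hT : TYP) (hI : INV) (hR : RES) : NET := by
  intro d X σ K _ _ x y pX h0 hσ hd gx gy
  obtain ⟨W, tX, Γ₁, q₁, p₁, η₁, g₁, b₁, j₁, -, sx, sy₁⟩ := hM _ _ X (Pn 4) K x y gx gy.toPt
  have gw := hD _ _ _ _ _ _ g₁ b₁
  obtain ⟨⟨U, tP, Γ, q, g, η, gη, bq, jq, fg, sy, sw⟩, iq⟩ := hM' _ _ W K y _ gy gw.toPt
  have bg := hG _ _ _ g _ _ gη fg (sw.gp gw)
  have gu := hD _ _ _ _ _ _ gη bq
  obtain ⟨i, hi, k⟩ := core d X _ W U Γ tX tP q g σ pn4.1 pn4.2 iq bq bg pX h0 hσ hd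
  choose Q hQ using fun s => Stp.ex hD hA gu (tP.st_bir s)
  have := tX.fin
  have := tP.fin
  have fA : {P | Pr W.π (η₁ ∘ q₁.iJ) P ∧ ¬ Pr (Pn 4).π y P ∧ SDiv (SK d) P.κ}.Finite :=
    (finite_range Q).subset fun P a => by
      obtain ⟨s, hs⟩ := tP.cov hD hA hB gu
        (hJ _ _ _ q _ _ P gη jq (Pr.mono hX g gη.toPt (a.1.sim sw))) fun b => a.2.1 (b.sim sy.symm)
      exact ⟨s, Stp.pc.uniq hD hB gu (tP.st_bir s) hs (hQ s)⟩
  have a1 : ∀ P : {P | Pr W.π (η₁ ∘ q₁.iJ) P ∧ ¬ Pr X.π x P ∧ SDiv (SK d) P.κ},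
      ∃ s : {s // KT d (tX.st s).c.Z}, (tX.st s.1).pc (η₁ ∘ q₁.iJ) P.1 := fun ⟨P, a⟩ => by
    obtain ⟨s, hs⟩ := tX.cov hD hA hB gw a.1 fun b => a.2.1 (b.sim sx.symm)
    obtain ⟨ζ, -, z⟩ := id hs
    exact ⟨⟨s, hI d _ _ _ ζ z a.2.2⟩, hs⟩
  choose u hu using a1
  have ui : Injective u := fun a b e =>
    Subtype.ext (Stp.pc.uniq hD hB gw (tX.st_bir _) (hu b) (e ▸ hu a))
  have a2 : ∀ o, Q (i o) ∈
      {P | Pr W.π (η₁ ∘ q₁.iJ) P ∧ ¬ Pr (Pn 4).π y P ∧ SDiv (SK d) P.κ} := fun o => by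
    obtain ⟨k1, k2⟩ := k o
    obtain ⟨-, w, w0, e, -⟩ := id k1
    have hw := e.ge (Submodule.mem_span_singleton_self w)
    obtain ⟨ζ, -, z⟩ := id (hQ (i o))
    exact ⟨(hR _ Γ W _ (q.comp (tP.st (i o)).f) g K η _ gη.toPt (hQ _) w hw w0 (k2 w hw)).sim
      sw.symm, fun b => tP.npr hX hD hB gu _ (hQ _) (b.sim sy), hT d _ _ _ ζ z k1⟩
  have := fA.to_subtype
  have a3 := Nat.card_le_card_of_injective (fun o => (⟨_, a2 o⟩ : {P | _})) fun o o' e =>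
    hi (tP.inj hX hD hB gu _ _ (hQ _)
      ((show Q (i o') = Q (i o) from (congrArg Subtype.val e).symm) ▸ hQ _))
  rw [Finite.card_option] at a3
  exact cnt_lt (w := Pr W.π (η₁ ∘ q₁.iJ)) (fun P a => Pr.mono hX tX.dn gw.toPt (a.sim sx))
    (fun P a => hJ _ _ _ q₁ _ _ P g₁ j₁ (Pr.mono hX p₁ g₁.toPt (a.sim sy₁))) fA
    (Finite.of_injective u ui) (Nat.lt_of_succ_le
      ((Nat.succ_le_succ (Nat.card_le_card_of_injective u ui)).trans a3))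

end Vale.Agent.P287D.Nc
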