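import Vale.Agent.P287D.Nc.Bas
import Vale.Agent.P287D.Nc.RkR

/-!
# P287D: specialisation of points, substitution of forms, the row PTX
-/

set_option linter.unusedSectionVars false

namespace Vale.Agent.P287D.Nc

open Set Function MvPolynomial P287Q

namespace Sp

variable {K : Type} [Field K] [Algebra ℂ K]

/-- **Specialisation**: a complex point with all the relations of `x` and outside `p = 0`. -/
theorem spec {σ : Type} [Finite σ] (x : σ → K) {p : MvPolynomial σ ℂ} (hp : aeval x p ≠ 0) :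
    ∃ y : σ → ℂ, eval y p ≠ 0 ∧ ∀ q, aeval x q = 0 → eval y q = 0 := by
  by_contra! h
  have k : p ∈ vanishingIdeal ℂ (zeroLocus ℂ (RingHom.ker (aeval (R := ℂ) x))) := fun y hy => by
    by_contra e
    obtain ⟨q, a, b⟩ := h y e
    exact b (hy q a)
  rw [vanishingIdeal_zeroLocus_eq_radical, (RingHom.ker_isPrime _).radical] at k
  exact hp k

variable {J J' R R' : Type} [Fintype J] [Fintype J'] [Fintype R] [Fintype R'] [DecidableEq R]
  [DecidableEq R'] {π : J → R} {π' : J' → R'}

/-- Substitution of forms into a form. -/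
theorem whom_aeval {d : R' → R → ℤ} {s : J' → MvPolynomial J ℂ}
    (hs : ∀ j, WHom (bw π) (d (π' j)) (s j)) {δ : R' → ℤ} {g : MvPolynomial J' ℂ}
    (hg : WHom (bw π') δ g) : WHom (bw π) (∑ r, δ r • d r) (aeval s g) := by
  rw [whom_iff, aeval_def, eval₂_eq']
  refine IsWeightedHomogeneous.sum _ _ _ fun α hα => ?_
  have e : ∑ r, δ r • d r = ∑ j, α j • d (π' j) := by
    simp only [← hg α hα, Finset.sum_smul]
    rw [Finset.sum_comm]
    refine Finset.sum_congr rfl fun j _ => ?_
    rw [Finset.sum_eq_single (π' j) (fun r _ h => by simp [bw, h]) (by simp)]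
    simp [bw]
  rw [e]
  exact (IsWeightedHomogeneous.prod _ _ _ fun j _ => (whom_iff.1 (hs j)).pow _).C_mul _

theorem whom_rename {i : J' → J} {ρ : R' → R} (e : ∀ j, π (i j) = ρ (π' j)) {δ : R' → ℤ}
    {g : MvPolynomial J' ℂ} (hg : WHom (bw π') δ g) :
    WHom (bw π) (∑ r, δ r • Pi.single (ρ r) 1) (rename i g) := by
  rw [rename_eq_aeval]
  exact whom_aeval (d := fun r => Pi.single (ρ r) 1) (fun j => by
    have := whom_X π (i j)
    rwa [show bw π (i j) = Pi.single (ρ (π' j)) 1 from congrArg (Pi.single · 1) (e j)] at this) hg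

variable {n m : ℕ} {V : Var n} {W : Var m}

/-- Equations of a variety. -/
theorem eqs (V : Var n) : ∃ (k : ℕ) (δ : V.R → ℤ) (g : Fin k → MvPolynomial V.J ℂ),
    Cut V.π (Ust V.π) V.A δ g ∧ ∀ r, 0 < δ r :=
  let ⟨k, δ, g, _, h, a, _⟩ := chow V.J V.R Empty V.π (fun _ => Empty.elim) V.A n V.pv
    fun τ _ y hy => by rwa [show tw _ τ y = y from funext fun j => by simp [tw]]
  ⟨k, δ, g, h, a⟩

/-- **Specialisation of a point of `V` together with further elements.** -/
theorem spec_pt {σ : Type} [Finite σ] {x : σ → K} {i : V.J → σ} (h : Pt V (x ∘ i))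
    {p : MvPolynomial σ ℂ} (hp : aeval x p ≠ 0) :
    ∃ y : σ → ℂ, y ∘ i ∈ V.A ∧ eval y p ≠ 0 ∧ ∀ q, aeval x q = 0 → eval y q = 0 := by
  choose s s1 s2 using h.nz
  obtain ⟨k, δ, g, c, -⟩ := eqs V
  obtain ⟨y, a, b⟩ := spec x (p := p * ∏ r, X (i (s r))) (by
    rw [map_mul, map_prod]
    exact mul_ne_zero hp (Finset.prod_ne_zero_iff.2 fun r _ => by simpa using s2 r))
  rw [map_mul, map_prod, mul_ne_zero_iff, Finset.prod_ne_zero_iff] at a
  refine ⟨y, (c.zero _ fun r => ⟨s r, s1 r, by simpa using a.2 r (Finset.mem_univ r)⟩).2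
    (funext fun l => ?_), a.1, b⟩
  have := b (rename i (g l)) ((aeval_rename _ _ _).trans (h.van _ _ (c.hom l) fun z hz =>
    congrFun ((c.zero z (c.sub hz)).1 hz) l))
  rwa [eval_rename] at this

/-- Every polynomial that vanishes on `V` vanishes at its points. -/
theorem van' {ξ : V.J → K} (h : Pt V ξ) {p : MvPolynomial V.J ℂ} (hp : ∀ y ∈ V.A, eval y p = 0) :
    aeval ξ p = 0 := by_contra fun e =>
  let ⟨y, a, b, _⟩ := spec_pt (i := id) h e
  b (hp y a)

end Sp

open Sp in
/-- **PTX** -/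
theorem ptx : PTX := fun n m V W f K _ _ ξ h => by
  refine ⟨fun r => ?_, fun δ g _ b => (aeval_rename _ _ _).symm.trans
    (van' h fun y hy => (eval_rename _ _ _).trans (b _ (f.map y hy)))⟩
  obtain ⟨y, a, -, b⟩ := spec_pt (i := id) (p := 1) h (by simp)
  obtain ⟨j, c, d⟩ := W.pv.sub (f.map y a) r
  exact ⟨j, c, fun e => d (by simpa using b (X (f.iJ j)) (by simpa using e))⟩

end Vale.Agent.P287D.Nc
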