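import Vale.Agent.P287D.Nc.Top
import Vale.Agent.P287D.Nc.Ptx
import Vale.Agent.P287D.Nc.Pa0

/-!
# P287D, the net count: the row TYP
-/

namespace Vale.Agent.P287D.Nc

open Set Function MvPolynomial P287Q

variable {n : ℕ} {K : Type} [Field K] [Algebra ℂ K]

/-- A generic point is the generic point of the field it generates. -/
theorem Gq.exists_gp {V : Var n} {ξ : V.J → K} (h : Gq V ξ) :
    ∃ ζ : V.J → fl V.π ξ, Gp V ζ := by
  obtain ⟨s, a⟩ := Pa.sel h.nz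
  have e := Pa.sim_nrm s a
  have g := e.gq h
  let ζ : V.J → fl V.π ξ := fun j => ⟨Pa.nrm s ξ j, by
    simpa [Pa.nrm, div_eq_inv_mul] using div_mem_fl (π := V.π) ξ (s.2 (V.π j)).symm⟩
  have k : ∀ p, aeval (Pa.nrm s ξ) p = 0 ↔ aeval ζ p = 0 := fun p =>
    (congrArg (· = 0) (comp_aeval_apply ζ (fl V.π ξ).val p)).to_iff.symm.trans
      (map_eq_zero_iff _ (fl V.π ξ).val.injective)
  refine ⟨ζ, ⟨⟨fun r => ⟨s.1 r, s.2 r, fun b => one_ne_zero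
    ((Pa.nrm_one s a r).symm.trans (congrArg Subtype.val b))⟩,
    fun δ p a b => (k p).1 (g.van δ p a b)⟩, fun δ p a b => g.gen δ p a ((k p).2 b)⟩, ?_⟩
  refine IntermediateField.map_injective (fl V.π ξ).val ?_
  rw [← fl_map, ← AlgHom.fieldRange_eq_map, IntermediateField.fieldRange_val]
  exact e.fl.symm

theorem gq_eP {Y : Var (n + 1)} (c : Ctr Y) {ζ : (E c).J → K} (h : Gq (E c) ζ) :
    Gq c.Z (ζ ∘ Sum.inl) :=
  ⟨ptx _ _ _ _ (eP c) _ _ h.toPt, fun δ g a b y hy => by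
    obtain ⟨u, hu⟩ := c.cut.bl_surj Y.pv c.pv (by have := c.cod; omega) (c.cut.sub hy)
    have := h.gen _ _ (Sp.whom_rename (eP c).blk a) ((aeval_rename _ _ _).trans b) _
      (c.cut.mem_exc.2 ⟨hu, hy⟩)
    rwa [eval_rename] at this⟩

/-- **TYP** -/
theorem typ_of (hR : RUL) : TYP := fun _ Y c K _ _ ζ h k =>
  let ⟨ξ, g⟩ := (gq_eP c h.toGq).exists_gp
  ⟨fl Y.π (ζ ∘ Sum.inl), ⟨_, c.Z, ξ, g, k⟩, hR 3 Y c K ζ (by rw [k.1]) h⟩

end Vale.Agent.P287D.Nc
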